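import Vale.Agent.N235.Transfer

/-! P235 (helper92): finite systems of arcs in a metric space; rerouting a new arc along the old
ones so that any two arcs meet in finitely many points. -/

namespace Vale.Agent.N235

open Vale.Agent.P235 Vale.Agent.P235F Vale.Agent.P235.H134 Set
open SimpleGraph hiding dist dist_comm

/-- an injective `1`-Lipschitz curve on `[a, b]` -/
structure Arc (X : Type) [MetricSpace X] where
  γ : ℝ → X
  a : ℝ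
  b : ℝ
  lip : LipschitzWith 1 γ
  inj : InjOn γ (Icc a b)

variable {X : Type} [MetricSpace X]

/-- the points of an arc -/
def Arc.img (A : Arc X) : Set X := A.γ '' Icc A.a A.b

theorem Arc.compact (A : Arc X) : IsCompact A.img := isCompact_Icc.image A.lip.continuous

theorem Arc.dist_le (A : Arc X) (s t : ℝ) : dist (A.γ s) (A.γ t) ≤ |s - t| := by
  simpa [Real.dist_eq] using A.lip.dist_le_mul s t

/-- the part of an arc between two parameters -/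
def Arc.sub (A : Arc X) (s t : ℝ) (hs : A.a ≤ s) (ht : t ≤ A.b) : Arc X :=
  ⟨A.γ, s, t, A.lip, A.inj.mono (Icc_subset_Icc hs ht)⟩

/-- the arc is geodesic up to the additive error `η` -/
def Arc.Good (η : ℝ) (A : Arc X) : Prop :=
  ∀ s ∈ Icc A.a A.b, ∀ t ∈ Icc A.a A.b, |s - t| ≤ dist (A.γ s) (A.γ t) + η

/-- the distance as a function of the unordered pair -/
noncomputable def dl : Sym2 X → ℝ := Sym2.lift ⟨fun x y => dist x y, dist_comm⟩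

theorem dist_le_len {G : SimpleGraph X} {x y : X} (w : G.Walk x y) : dist x y ≤ len dl w := by
  induction w with
  | nil => simp [len]
  | cons h w ih =>
    simp only [len, Walk.edges_cons, List.map_cons, List.sum_cons] at ih ⊢
    exact (dist_triangle _ _ _).trans (add_le_add le_rfl ih)

/-- `u`, `v` are consecutive among the points of `P` on an arc of `𝒜` -/
def Cons (𝒜 : Set (Arc X)) (P : Set X) (u v : X) : Prop :=
  ∃ A ∈ 𝒜, ∃ s t, A.a ≤ s ∧ s < t ∧ t ≤ A.b ∧ A.γ s = u ∧ A.γ t = v ∧ ∀ r ∈ Ioo s t, A.γ r ∉ P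

/-- the graph of a system of arcs with the subdivision points `P` -/
def gr (𝒜 : Set (Arc X)) (P : Set X) : SimpleGraph X := fromRel (Cons 𝒜 P)

theorem gr_mono {𝒜 ℬ : Set (Arc X)} (h : 𝒜 ⊆ ℬ) (P : Set X) : gr 𝒜 P ≤ gr ℬ P :=
  fun _ _ ⟨h1, h2⟩ => ⟨h1, h2.imp (fun ⟨A, hA, h'⟩ => ⟨A, h hA, h'⟩)
    fun ⟨A, hA, h'⟩ => ⟨A, h hA, h'⟩⟩

/-- a walk inside `P` of length at most `c` -/
def W (G : SimpleGraph X) (P : Set X) (x y : X) (c : ℝ) : Prop :=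
  ∃ w : G.Walk x y, (∀ v ∈ w.support, v ∈ P) ∧ len dl w ≤ c

theorem W.trans {G : SimpleGraph X} {P : Set X} {x y z : X} {c c' : ℝ} (h : W G P x y c)
    (h' : W G P y z c') : W G P x z (c + c') := by
  obtain ⟨w, h1, h2⟩ := h
  obtain ⟨w', h3, h4⟩ := h'
  refine ⟨w.append w', fun v hv => ?_, (len_append _ _ _).trans_le (add_le_add h2 h4)⟩
  exact ((Walk.mem_support_append_iff _ _).1 hv).elim (h1 v) (h3 v)

theorem W.symm {G : SimpleGraph X} {P : Set X} {x y : X} {c : ℝ} (h : W G P x y c) :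
    W G P y x c := by
  obtain ⟨w, h1, h2⟩ := h
  exact ⟨w.reverse, fun v hv => h1 v (by simpa using hv), (len_reverse _ _).trans_le h2⟩

theorem along {𝒜 : Set (Arc X)} {P : Set X} (hP : P.Finite) {A : Arc X} (hA : A ∈ 𝒜) (n : ℕ) :
    ∀ s t, A.a ≤ s → s ≤ t → t ≤ A.b → A.γ s ∈ P → A.γ t ∈ P →
      {r ∈ Ioo s t | A.γ r ∈ P}.ncard = n → W (gr 𝒜 P) P (A.γ s) (A.γ t) (t - s) := by
  induction n using Nat.strong_induction_on with
  | _ n ih =>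
  intro s t hs hst ht h1 h2 hn
  have hfin : {r ∈ Ioo s t | A.γ r ∈ P}.Finite :=
    Finite.of_finite_image (f := A.γ) (hP.subset (by rintro _ ⟨r, hr, rfl⟩; exact hr.2))
      (A.inj.mono fun r hr => mem_Icc.2 ⟨hs.trans hr.1.1.le, hr.1.2.le.trans ht⟩)
  rcases hst.eq_or_lt with rfl | hst
  · exact ⟨.nil, by simpa using h1, by simp [len]⟩
  by_cases h : ∃ r ∈ Ioo s t, A.γ r ∈ P
  · obtain ⟨r, hr, hrP⟩ := h
    have e : t - s = (r - s) + (t - r) := by ring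
    rw [e]
    refine (ih _ ?_ s r hs hr.1.le (hr.2.le.trans ht) h1 hrP rfl).trans
      (ih _ ?_ r t (hs.trans hr.1.le) hr.2.le ht hrP h2 rfl)
    · rw [← hn]
      exact ncard_lt_ncard ⟨fun u hu => ⟨⟨hu.1.1, hu.1.2.trans hr.2⟩, hu.2⟩,
        fun h => lt_irrefl _ (h ⟨hr, hrP⟩).1.2⟩ hfin
    · rw [← hn]
      exact ncard_lt_ncard ⟨fun u hu => ⟨⟨hr.1.trans hu.1.1, hu.1.2⟩, hu.2⟩,
        fun h => lt_irrefl _ (h ⟨hr, hrP⟩).1.1⟩ hfin
  · push Not at h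
    have hne : A.γ s ≠ A.γ t := fun e =>
      hst.ne (A.inj ⟨hs, hst.le.trans ht⟩ ⟨hs.trans hst.le, ht⟩ e)
    have hadj : (gr 𝒜 P).Adj (A.γ s) (A.γ t) :=
      ⟨hne, Or.inl ⟨A, hA, s, t, hs, hst, ht, rfl, rfl, h⟩⟩
    refine ⟨.cons hadj .nil, by simp [h1, h2], ?_⟩
    have := A.dist_le s t
    rw [abs_sub_comm, abs_of_pos (sub_pos.2 hst)] at this
    simpa [len, dl] using this

/-- for all fine enough subdivisions of the arcs there is a walk of length at most `c` -/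
def R (𝒜 : Set (Arc X)) (x y : X) (c : ℝ) : Prop :=
  ∃ J : Set X, J.Finite ∧ ∀ P, J ⊆ P → P.Finite → W (gr 𝒜 P) P x y c

theorem R.trans {𝒜 : Set (Arc X)} {x y z : X} {c c' : ℝ} (h : R 𝒜 x y c) (h' : R 𝒜 y z c') :
    R 𝒜 x z (c + c') := by
  obtain ⟨J, h1, h2⟩ := h
  obtain ⟨J', h3, h4⟩ := h'
  exact ⟨J ∪ J', h1.union h3, fun P hP hf => (h2 P (subset_union_left.trans hP) hf).trans
    (h4 P (subset_union_right.trans hP) hf)⟩

theorem R.mono {𝒜 ℬ : Set (Arc X)} {x y : X} {c c' : ℝ} (h : R 𝒜 x y c) (h1 : 𝒜 ⊆ ℬ)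
    (h2 : c ≤ c') : R ℬ x y c' := by
  obtain ⟨J, h3, h4⟩ := h
  refine ⟨J, h3, fun P hP hf => ?_⟩
  obtain ⟨w, h5, h6⟩ := h4 P hP hf
  refine ⟨w.mapLe (gr_mono h1 P), fun v hv => h5 v (by simpa using hv), le_trans ?_ (h6.trans h2)⟩
  simp [len]

theorem R.move {𝒜 : Set (Arc X)} {A : Arc X} (hA : A ∈ 𝒜) {s t : ℝ} (hs : s ∈ Icc A.a A.b)
    (ht : t ∈ Icc A.a A.b) : R 𝒜 (A.γ s) (A.γ t) |s - t| := by
  refine ⟨{A.γ s, A.γ t}, toFinite _, fun P hP hf => ?_⟩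
  have h1 : A.γ s ∈ P := hP (by simp)
  have h2 : A.γ t ∈ P := hP (by simp)
  rcases le_total s t with h | h
  · rw [abs_sub_comm, abs_of_nonneg (sub_nonneg.2 h)]
    exact along hf hA _ s t hs.1 h ht.2 h1 h2 rfl
  · rw [abs_of_nonneg (sub_nonneg.2 h)]
    exact (along hf hA _ t s ht.1 h hs.2 h2 h1 rfl).symm

theorem fin_of_avoid {N : Arc X} {K : Set X} (h : ∀ r ∈ Ioo N.a N.b, N.γ r ∉ K) :
    (N.img ∩ K).Finite := by
  refine (toFinite {N.γ N.a, N.γ N.b}).subset ?_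
  rintro _ ⟨⟨r, hr, rfl⟩, hK⟩
  rcases hr.1.eq_or_lt with h1 | h1
  · simp [← h1]
  rcases hr.2.eq_or_lt with h2 | h2
  · simp [h2]
  exact absurd hK (h r ⟨h1, h2⟩)

open Classical in
/-- first hit, last exit -/
theorem reroute {η : ℝ} (hη : 0 ≤ η) (𝒜 : Finset (Arc X)) (hg : ∀ A ∈ 𝒜, A.Good η) (g : Arc X)
    (n : ℕ) : ∀ ℬ ⊆ 𝒜, ℬ.card = n → ∀ t ∈ Icc g.a g.b,
      (∀ A ∈ 𝒜, A ∉ ℬ → ∀ r ∈ Ioc t g.b, g.γ r ∉ A.img) →
      ∃ 𝒩 : Finset (Arc X), 𝒩.card ≤ n + 1 ∧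
        (∀ N ∈ 𝒩, N.γ = g.γ ∧ t ≤ N.a ∧ N.b ≤ g.b ∧ ∀ A ∈ 𝒜, (N.img ∩ A.img).Finite) ∧
        (∀ N ∈ 𝒩, ∀ N' ∈ 𝒩, N ≠ N' → (N.img ∩ N'.img).Finite) ∧
        R (↑(𝒜 ∪ 𝒩)) (g.γ t) (g.γ g.b) (g.b - t + n * η) := by
  induction n using Nat.strong_induction_on with
  | _ n ih =>
  intro ℬ hℬ hn t ht hav
  have hcl : ∀ K : Set X, IsClosed K → IsCompact (Icc t g.b ∩ g.γ ⁻¹' K) := fun K hK =>
    isCompact_Icc.inter_right (hK.preimage g.lip.continuous)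
  rcases (Icc t g.b ∩ g.γ ⁻¹' ⋃ A ∈ ℬ, A.img).eq_empty_or_nonempty with h | h
  · refine ⟨{g.sub t g.b ht.1 le_rfl}, by simp, fun N hN => ?_, by simp, ?_⟩
    · rw [Finset.mem_singleton.1 hN]
      refine ⟨rfl, le_rfl, le_rfl, fun A hA => fin_of_avoid fun r hr hrA => ?_⟩
      by_cases hAB : A ∈ ℬ
      · exact (eq_empty_iff_forall_notMem.1 h) r ⟨Ioo_subset_Icc_self hr,
          mem_iUnion₂.2 ⟨A, hAB, hrA⟩⟩
      · exact hav A hA hAB r (Ioo_subset_Ioc_self hr) hrA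
    · refine (R.move (A := g.sub t g.b ht.1 le_rfl) (s := t) (t := g.b) (by simp) ⟨le_rfl, ht.2⟩
        ⟨ht.2, le_rfl⟩).mono subset_rfl ?_
      rw [abs_sub_comm, abs_of_nonneg (sub_nonneg.2 ht.2)]
      exact le_add_of_nonneg_right (by positivity)
  obtain ⟨t₁, ⟨ht₁, h1⟩, hmin⟩ := (hcl _ (isClosed_biUnion_finset fun A _ =>
    A.compact.isClosed)).exists_isLeast h
  obtain ⟨A, hA, h1⟩ := mem_iUnion₂.1 h1
  obtain ⟨t₂, ⟨ht₂, h2⟩, hmax⟩ := (hcl _ A.compact.isClosed).exists_isGreatest ⟨t₁, ht₁, h1⟩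
  have h12 : t₁ ≤ t₂ := hmax ⟨ht₁, h1⟩
  have hcard : (ℬ.erase A).card + 1 = n := by rw [Finset.card_erase_add_one hA, hn]
  obtain ⟨𝒩, hc, hN, hNN, hR⟩ := ih _ (by omega) (ℬ.erase A)
    ((Finset.erase_subset _ _).trans hℬ) rfl t₂ ⟨ht.1.trans ht₂.1, ht₂.2⟩ (by
      intro B hB hBe r hr hrB
      by_cases hBA : B = A
      · subst hBA
        exact not_le.2 hr.1 (hmax ⟨⟨ht₂.1.trans hr.1.le, hr.2⟩, hrB⟩)
      · exact hav B hB (fun h => hBe (Finset.mem_erase.2 ⟨hBA, h⟩)) r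
          ⟨ht₂.1.trans_lt hr.1, hr.2⟩ hrB)
  set N₀ := g.sub t t₁ ht.1 ht₁.2 with hN₀
  have hnew : ∀ N ∈ 𝒩, (N₀.img ∩ N.img).Finite := by
    intro N hN'
    obtain ⟨e, h3, h4, -⟩ := hN N hN'
    refine fin_of_avoid ?_
    rintro r hr ⟨r', hr', e'⟩
    rw [e] at e'
    have : r' = r := g.inj ⟨(ht.1.trans ht₂.1).trans (h3.trans hr'.1), hr'.2.trans h4⟩
      ⟨ht.1.trans hr.1.le, hr.2.le.trans ht₁.2⟩ e'
    exact not_le.2 hr.2 (h12.trans (h3.trans (this ▸ hr'.1)))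
  refine ⟨insert N₀ 𝒩, (Finset.card_insert_le _ _).trans (by omega), fun N hN' => ?_,
    fun N hN' N' hN'' hne => ?_, ?_⟩
  · rcases Finset.mem_insert.1 hN' with rfl | hN'
    · refine ⟨rfl, le_rfl, ht₁.2, fun B hB => fin_of_avoid fun r hr hrB => ?_⟩
      by_cases hBB : B ∈ ℬ
      · exact not_le.2 hr.2 (hmin ⟨⟨hr.1.le, hr.2.le.trans ht₁.2⟩, mem_iUnion₂.2 ⟨B, hBB, hrB⟩⟩)
      · exact hav B hB hBB r ⟨hr.1, hr.2.le.trans ht₁.2⟩ hrB
    · obtain ⟨e, h3, h4⟩ := hN N hN'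
      exact ⟨e, ht₂.1.trans h3, h4⟩
  · rcases Finset.mem_insert.1 hN' with rfl | hN' <;>
      rcases Finset.mem_insert.1 hN'' with rfl | hN''
    · exact absurd rfl hne
    · exact hnew _ hN''
    · exact inter_comm _ _ ▸ hnew _ hN'
    · exact hNN _ hN' _ hN'' hne
  · obtain ⟨s₁, hs₁, e₁⟩ := h1
    obtain ⟨s₂, hs₂, e₂⟩ := h2
    have r1 : R (↑(𝒜 ∪ insert N₀ 𝒩)) (g.γ t) (g.γ t₁) |t - t₁| :=
      R.move (A := N₀) (by simp) ⟨le_rfl, ht₁.1⟩ ⟨ht₁.1, le_rfl⟩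
    have r2 : R (↑(𝒜 ∪ insert N₀ 𝒩)) (g.γ t₁) (g.γ t₂) |s₁ - s₂| :=
      e₁ ▸ e₂ ▸ R.move (A := A) (by simp [hℬ hA]) hs₁ hs₂
    refine ((r1.trans r2).trans (hR.mono (by
      exact_mod_cast Finset.union_subset_union_right (Finset.subset_insert _ _)) le_rfl)).mono
      subset_rfl ?_
    have h3 := hg A (hℬ hA) s₁ hs₁ s₂ hs₂
    have h4 := g.dist_le t₁ t₂
    rw [e₁, e₂] at h3
    rw [abs_sub_comm, abs_of_nonneg (sub_nonneg.2 h12)] at h4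
    rw [abs_sub_comm, abs_of_nonneg (sub_nonneg.2 ht₁.1), ← hcard]
    push_cast
    linarith

/-- any two points are joined by arcs of length arbitrarily close to their distance -/
def ArcLength (X : Type) [MetricSpace X] : Prop :=
  ∀ (x y : X) (η : ℝ), 0 < η → ∃ g : Arc X, g.a ≤ g.b ∧ g.γ g.a = x ∧ g.γ g.b = y ∧
    g.b - g.a ≤ dist x y + η

open Classical in
theorem system (hX : ArcLength X) (T : Finset (X × X)) : ∃ n : ℕ, ∀ η : ℝ, 0 < η →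
    ∃ 𝒜 : Finset (Arc X), 𝒜.card ≤ n ∧ (∀ A ∈ 𝒜, A.Good η) ∧
      (∀ A ∈ 𝒜, ∀ B ∈ 𝒜, A ≠ B → (A.img ∩ B.img).Finite) ∧
      ∀ p ∈ T, R (↑𝒜 : Set (Arc X)) p.1 p.2 (dist p.1 p.2 + n * η) := by
  induction T using Finset.induction_on with
  | empty => exact ⟨0, fun η _ => ⟨∅, by simp⟩⟩
  | insert p T _ ih =>
    obtain ⟨n, hn⟩ := ih
    refine ⟨2 * n + 1, fun η hη => ?_⟩
    obtain ⟨𝒜, h1, h2, h3, h4⟩ := hn η hη
    obtain ⟨g, g1, g2, g3, g4⟩ := hX p.1 p.2 η hη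
    obtain ⟨𝒩, n1, n2, n3, n4⟩ := reroute hη.le 𝒜 h2 g _ 𝒜 subset_rfl rfl g.a ⟨le_rfl, g1⟩
      fun A hA hA' => absurd hA hA'
    have hgood : ∀ s t, g.a ≤ s → s ≤ t → t ≤ g.b → t - s ≤ dist (g.γ s) (g.γ t) + η := by
      intro s t hs hst ht
      have a1 := g.dist_le g.a s
      have a2 := g.dist_le t g.b
      rw [abs_sub_comm, abs_of_nonneg (sub_nonneg.2 hs), g2] at a1
      rw [abs_sub_comm, abs_of_nonneg (sub_nonneg.2 ht), g3] at a2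
      have := dist_triangle4 p.1 (g.γ s) (g.γ t) p.2
      linarith
    have hn0 : (0:ℝ) ≤ n := n.cast_nonneg
    refine ⟨𝒜 ∪ 𝒩, (Finset.card_union_le _ _).trans (by omega), fun A hA => ?_,
      fun A hA B hB hne => ?_, fun q hq => ?_⟩
    · rcases Finset.mem_union.1 hA with hA | hA
      · exact h2 A hA
      · obtain ⟨e, a1, a2, -⟩ := n2 A hA
        intro s hs t ht
        rw [e]
        rcases le_total s t with h | h
        · rw [abs_sub_comm, abs_of_nonneg (sub_nonneg.2 h)]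
          exact hgood s t (a1.trans hs.1) h (ht.2.trans a2)
        · rw [abs_of_nonneg (sub_nonneg.2 h), dist_comm]
          exact hgood t s (a1.trans ht.1) h (hs.2.trans a2)
    · rcases Finset.mem_union.1 hA with hA | hA <;> rcases Finset.mem_union.1 hB with hB | hB
      · exact h3 A hA B hB hne
      · exact inter_comm _ _ ▸ (n2 B hB).2.2.2 A hA
      · exact (n2 A hA).2.2.2 B hB
      · exact n3 A hA B hB hne
    · rcases Finset.mem_insert.1 hq with rfl | hq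
      · rw [g2, g3] at n4
        refine n4.mono subset_rfl ?_
        have : (𝒜.card : ℝ) ≤ n := by exact_mod_cast h1
        push_cast
        nlinarith
      · refine (h4 q hq).mono (by exact_mod_cast Finset.subset_union_left) ?_
        push_cast
        nlinarith

/-- `H` is drawn without crossings in the space `Y` -/
def Drawn (Y : Type) [TopologicalSpace Y] {W : Type} (H : SimpleGraph W) : Prop :=
  ∃ (p : W → Y) (γ : Sym2 W → ℝ → Y), Function.Injective p ∧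
    (∀ e ∈ H.edgeSet, ContinuousOn (γ e) (Set.Icc 0 1) ∧ Set.InjOn (γ e) (Set.Icc 0 1)) ∧
    (∀ a b, H.Adj a b → ({γ s(a, b) 0, γ s(a, b) 1} : Set Y) = {p a, p b}) ∧
    (∀ e ∈ H.edgeSet, ∀ a, p a ∈ γ e '' Set.Icc 0 1 → a ∈ e) ∧
    (∀ e ∈ H.edgeSet, ∀ e' ∈ H.edgeSet, e ≠ e' →
      γ e '' Set.Icc 0 1 ∩ γ e' '' Set.Icc 0 1 ⊆ Set.range p)

/-- The graph of a system of arcs is drawn without crossings as soon as all crossings of the arcs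
are subdivision points. -/
theorem drawn_gr {𝒜 : Set (Arc X)} {P Q : Set X} (hPQ : P ⊆ Q)
    (hQ : ∀ A ∈ 𝒜, ∀ B ∈ 𝒜, A ≠ B → A.img ∩ B.img ⊆ Q) {K : Set X} (hK : ∀ A ∈ 𝒜, A.img ⊆ K)
    (hQK : Q ⊆ K) {Y : Type} [TopologicalSpace Y] {φ : X → Y} (hφ : ContinuousOn φ K)
    (hinj : InjOn φ K) : Drawn Y ((gr 𝒜 Q).induce P) := by
  have hex : ∀ e ∈ ((gr 𝒜 Q).induce P).edgeSet, ∃ u v : P, e = s(u, v) ∧ Cons 𝒜 Q u v := by
    intro e he
    induction e using Sym2.ind with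
    | _ a b => exact he.2.elim (fun h => ⟨a, b, rfl, h⟩) fun h => ⟨b, a, Sym2.eq_swap, h⟩
  let D : Sym2 P → Arc X × ℝ × ℝ → Prop := fun e q => q.1 ∈ 𝒜 ∧ q.1.a ≤ q.2.1 ∧ q.2.1 < q.2.2 ∧
    q.2.2 ≤ q.1.b ∧ (∀ r ∈ Ioo q.2.1 q.2.2, q.1.γ r ∉ Q) ∧
    ∃ u v : P, e = s(u, v) ∧ q.1.γ q.2.1 = u ∧ q.1.γ q.2.2 = v
  have hex' : ∀ e : Sym2 P, ∃ c : ℝ → X, e ∈ ((gr 𝒜 Q).induce P).edgeSet →
      ∃ q, D e q ∧ c = fun τ => q.1.γ (q.2.1 + τ * (q.2.2 - q.2.1)) := by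
    intro e
    by_cases he : e ∈ ((gr 𝒜 Q).induce P).edgeSet
    · obtain ⟨u, v, e1, A, hA, s, t, h1, h2, h3, h4, h5, h6⟩ := hex e he
      exact ⟨_, fun _ => ⟨(A, s, t), ⟨hA, h1, h2, h3, h6, u, v, e1, h4, h5⟩, rfl⟩⟩
    · induction e using Sym2.ind with
      | _ a b => exact ⟨fun _ => a, fun h => absurd h he⟩
  choose c hc using hex'
  have hmem : ∀ s t τ : ℝ, s < t → τ ∈ Icc (0:ℝ) 1 → s + τ * (t - s) ∈ Icc s t :=
    fun s t τ h hτ => ⟨by nlinarith [hτ.1], by nlinarith [hτ.2]⟩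
  have hsub : ∀ e q, D e q → ∀ r ∈ Icc q.2.1 q.2.2, r ∈ Icc q.1.a q.1.b := fun e q h r hr =>
    ⟨h.2.1.trans hr.1, hr.2.trans h.2.2.2.1⟩
  have hinK : ∀ e q, D e q → ∀ r ∈ Icc q.2.1 q.2.2, q.1.γ r ∈ K := fun e q h r hr =>
    hK _ h.1 ⟨r, hsub e q h r hr, rfl⟩
  have hend : ∀ e q, D e q → ∀ r ∈ Icc q.2.1 q.2.2, q.1.γ r ∈ Q → ∃ u ∈ e, q.1.γ r = u := by
    rintro e q ⟨-, -, -, -, h1, u, v, rfl, h2, h3⟩ r hr hrQ
    rcases hr.1.eq_or_lt with h4 | h4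
    · exact ⟨u, by simp, h4 ▸ h2⟩
    rcases hr.2.eq_or_lt with h5 | h5
    · exact ⟨v, by simp, h5 ▸ h3⟩
    exact absurd hrQ (h1 r ⟨h4, h5⟩)
  refine ⟨fun a => φ a, fun e τ => φ (c e τ), fun a b h => Subtype.ext
    (hinj (hQK (hPQ a.2)) (hQK (hPQ b.2)) h), fun e he => ?_, fun a b hab => ?_,
    fun e he a ha => ?_, fun e he e' he' hne z hz => ?_⟩
  · obtain ⟨q, h, e1⟩ := hc e he
    simp only [e1]
    refine ⟨hφ.comp (q.1.lip.continuous.comp (by fun_prop)).continuousOn fun τ hτ =>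
      hinK e q h _ (hmem _ _ τ h.2.2.1 hτ), fun τ hτ τ' hτ' e2 => ?_⟩
    have m1 := hmem _ _ τ h.2.2.1 hτ
    have m2 := hmem _ _ τ' h.2.2.1 hτ'
    have := q.1.inj (hsub e q h _ m1) (hsub e q h _ m2) (hinj (hinK e q h _ m1) (hinK e q h _ m2) e2)
    exact mul_right_cancel₀ (sub_pos.2 h.2.2.1).ne' (add_left_cancel this)
  · obtain ⟨q, ⟨-, -, -, -, -, u, v, e2, h2, h3⟩, e1⟩ := hc s(a, b) hab
    simp only [e1, zero_mul, add_zero, one_mul, add_sub_cancel, h2, h3]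
    rcases Sym2.eq_iff.1 e2 with ⟨rfl, rfl⟩ | ⟨rfl, rfl⟩
    · rfl
    · exact pair_comm _ _
  · obtain ⟨q, h, e1⟩ := hc e he
    obtain ⟨τ, hτ, e2⟩ := ha
    have m := hmem _ _ τ h.2.2.1 hτ
    simp only [e1] at e2
    have e3 := hinj (hinK e q h _ m) (hQK (hPQ a.2)) e2
    obtain ⟨u, hu, e4⟩ := hend e q h _ m (e3 ▸ hPQ a.2)
    exact (Subtype.ext (e4.symm.trans e3) : u = a) ▸ hu
  · obtain ⟨q, h, e1⟩ := hc e he
    obtain ⟨q', h', e1'⟩ := hc e' he'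
    obtain ⟨⟨τ, hτ, rfl⟩, τ', hτ', e2⟩ := hz
    have m := hmem _ _ τ h.2.2.1 hτ
    have m' := hmem _ _ τ' h'.2.2.1 hτ'
    simp only [e1, e1'] at e2 ⊢
    generalize q.2.1 + τ * (q.2.2 - q.2.1) = r at m e2 ⊢
    generalize q'.2.1 + τ' * (q'.2.2 - q'.2.1) = r' at m' e2
    have e3 := hinj (hinK e' q' h' _ m') (hinK e q h _ m) e2
    suffices hq : q.1.γ r ∈ Q by
      obtain ⟨u, -, e4⟩ := hend e q h r m hq
      exact ⟨u, congrArg φ e4.symm⟩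
    by_contra hq
    obtain ⟨A, s, t⟩ := q
    obtain ⟨A', s', t'⟩ := q'
    obtain rfl : A = A' := by
      by_contra hA
      exact hq (hQ A h.1 A' h'.1 hA ⟨⟨r, hsub _ _ h r m, rfl⟩, r', hsub _ _ h' r' m', e3⟩)
    obtain rfl : r' = r := A.inj (hsub _ _ h' r' m') (hsub _ _ h r m) e3
    obtain ⟨-, -, -, -, f, u, v, rfl, h2, h3⟩ := h
    obtain ⟨-, -, -, -, f', u', v', rfl, h2', h3'⟩ := h'
    dsimp only at *
    have lt : ∀ {s : ℝ} {u : P}, A.γ s = u → s ≠ r' := fun {s u} h e => hq (e ▸ h ▸ hPQ u.2)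
    have a1 := lt_of_le_of_ne m.1 (lt h2)
    have a2 := lt_of_le_of_ne m.2 (lt h3).symm
    have a3 := lt_of_le_of_ne m'.1 (lt h2')
    have a4 := lt_of_le_of_ne m'.2 (lt h3').symm
    obtain rfl : s = s' := le_antisymm
      (not_lt.1 fun l => f' s ⟨l, a1.trans a4⟩ (h2 ▸ hPQ u.2))
      (not_lt.1 fun l => f s' ⟨l, a3.trans a2⟩ (h2' ▸ hPQ u'.2))
    obtain rfl : t = t' := le_antisymm
      (not_lt.1 fun l => f t' ⟨a1.trans a4, l⟩ (h3' ▸ hPQ v'.2))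
      (not_lt.1 fun l => f' t ⟨a3.trans a2, l⟩ (h3 ▸ hPQ v.2))
    exact hne (by rw [Subtype.ext (h2.symm.trans h2'), Subtype.ext (h3.symm.trans h3')])

/-- every finite union of arcs and points injects continuously into `Y` -/
def Flat (Y : Type) [TopologicalSpace Y] (X : Type) [MetricSpace X] : Prop :=
  ∀ (𝒜 : Finset (Arc X)) (Q : Set X), Q.Finite → ∃ φ : X → Y,
    ContinuousOn φ (Q ∪ ⋃ A ∈ 𝒜, A.img) ∧ InjOn φ (Q ∪ ⋃ A ∈ 𝒜, A.img)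

theorem embeds_of_flat {C : ℝ} {Y : Type} [TopologicalSpace Y]
    (hC : ∀ (V : Type) [Finite V] (G : SimpleGraph V), G.Connected → Drawn Y G → DistortionLE G C)
    (hX : ArcLength X) (hF : Flat Y X) : EmbedsL1 (fun x y : X => dist x y) C := by
  refine embeds_of_walks (ℓ := dl) fun S ε hε => ?_
  obtain ⟨n, hn⟩ := system hX (S ×ˢ S)
  obtain ⟨𝒜, -, -, h3, h4⟩ := hn (ε / (n + 1)) (by positivity)
  choose! J hJ hR using h4
  set Q : Set X := (⋃ p ∈ S ×ˢ S, J p) ∪ ⋃ A ∈ 𝒜, ⋃ B ∈ 𝒜, ⋃ _ : A ≠ B, A.img ∩ B.img with hQ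
  have hQf : Q.Finite := ((S ×ˢ S).finite_toSet.biUnion hJ).union
    (𝒜.finite_toSet.biUnion fun A hA => 𝒜.finite_toSet.biUnion fun B hB =>
      finite_iUnion fun h => h3 A hA B hB h)
  obtain ⟨φ, hφ, hinj⟩ := hF 𝒜 Q hQf
  refine ⟨gr 𝒜 Q, Q, fun e he => ?_, fun x y w => dist_le_len w, fun P hP hf hc => ?_,
    fun x hx y hy => ?_⟩
  · induction e using Sym2.ind with
    | _ a b => exact dist_pos.2 he.1
  · have := hf.to_subtype
    refine hC P _ hc (drawn_gr hP (fun A hA B hB hne => ?_)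
      (fun A hA => (subset_biUnion_of_mem (u := Arc.img) hA).trans subset_union_right)
      subset_union_left hφ hinj)
    exact fun z hz => Or.inr (mem_iUnion₂.2 ⟨A, hA, mem_iUnion₂.2 ⟨B, hB, mem_iUnion.2 ⟨hne, hz⟩⟩⟩)
  · have hp : (x, y) ∈ S ×ˢ S := Finset.mem_product.2 ⟨hx, hy⟩
    obtain ⟨w, h1, h2⟩ := hR _ hp Q (fun z hz => Or.inl (mem_iUnion₂.2 ⟨_, hp, hz⟩)) hQf
    refine ⟨w, h1, h2.trans (add_le_add le_rfl ?_)⟩
    rw [mul_div_assoc', div_le_iff₀ (by positivity)]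
    nlinarith

end Vale.Agent.N235
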