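import Vale.Agent.P235F.Main
import Mathlib.MeasureTheory.Integral.RieszMarkovKakutani.Real
import Mathlib.MeasureTheory.Measure.Prod

/-! P235 (helper92): embeddability into `L₁` with distortion `C` is determined by the finite
subsets, for sets of any cardinality. -/

namespace Vale.Agent.N235

open Vale.Agent.P235 Vale.Agent.P235F MeasureTheory Filter Topology Set
open scoped CompactlySupported ENNReal

section cuts

variable {V : Type} [Fintype V]

/-- the levels at which `g` cuts out the set `A` -/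
def lev (A : Set V) (g : V → ℝ) : Set ℝ := {t | {z | t < g z} = A}

theorem meas_lev (A : Set V) : MeasurableSet {q : (V → ℝ) × ℝ | q.2 ∈ lev A q.1} := by
  have : {q : (V → ℝ) × ℝ | q.2 ∈ lev A q.1} = ⋂ z, {q | q.2 < q.1 z ↔ z ∈ A} := by
    ext q
    simp [lev, Set.ext_iff]
  rw [this]
  refine MeasurableSet.iInter fun z => ?_
  have h : MeasurableSet {q : (V → ℝ) × ℝ | q.2 < q.1 z} :=
    measurableSet_lt measurable_snd ((measurable_pi_apply z).comp measurable_fst)
  by_cases hz : z ∈ A
  · simpa [hz] using h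
  · simpa [hz, Set.compl_ofPred] using h.compl

theorem sum_lev (g : V → ℝ) (x y : V) :
    ∑ A, (volume (lev A g)).toReal * ind A s(x, y) = |g x - g y| := by
  classical
  have hm : ∀ A, MeasurableSet (lev A g) := fun A => measurable_prodMk_left (meas_lev A)
  set I := Set.Ico (min (g x) (g y)) (max (g x) (g y)) with hI
  have key : ∀ t, t ∈ I ↔ Crosses {z | t < g z} s(x, y) := by
    intro t
    rw [crosses_mk]
    simp only [hI, Set.mem_ofPred_eq, Set.mem_Ico, lt_max_iff, ← not_lt, lt_min_iff]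
    tauto
  have hU : I = ⋃ A ∈ Finset.univ.filter (fun A : Set V => Crosses A s(x, y)), lev A g := by
    ext t
    simp only [mem_iUnion, Finset.mem_filter, Finset.mem_univ, true_and, exists_prop, key]
    exact ⟨fun h => ⟨_, h, rfl⟩, fun ⟨A, h1, h2⟩ => (show {z | t < g z} = A from h2) ▸ h1⟩
  have h1 : volume.real I =
      ∑ A ∈ Finset.univ.filter (fun A : Set V => Crosses A s(x, y)), volume.real (lev A g) := by
    rw [hU]
    refine measureReal_biUnion_finset (fun A _ B _ hAB => Set.disjoint_left.2 fun t h1 h2 =>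
      hAB ((show {z | t < g z} = A from h1).symm.trans h2)) (fun A _ => hm A) fun A hA => ?_
    refine ne_top_of_le_ne_top (b := volume I) (by simp [hI]) (measure_mono ?_)
    rw [hU]
    exact subset_biUnion_of_mem (u := fun A => lev A g) hA
  rw [hI, Real.volume_real_Ico_of_le min_le_max, max_sub_min_eq_abs, abs_sub_comm] at h1
  rw [h1, Finset.sum_filter]
  refine Finset.sum_congr rfl fun A _ => ?_
  unfold ind
  split_ifs <;> simp [measureReal_def]

/-- a finite subset of `L₁` is a nonnegative combination of cuts -/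
theorem cuts_of_L1 {Ω : Type} [MeasurableSpace Ω] {μ : Measure Ω} (f : V → Lp ℝ 1 μ) :
    ∃ w : Set V → ℝ, (∀ A, 0 ≤ w A) ∧ ∀ x y, ‖f x - f y‖ = ∑ A, w A * ind A s(x, y) := by
  classical
  have hg : Measurable fun ω (z : V) => f z ω :=
    measurable_pi_lambda _ fun z => (Lp.stronglyMeasurable (f z)).measurable
  have hm : ∀ A : Set V, Measurable fun ω => (volume (lev A fun z => f z ω)).toReal := fun A =>
    ((measurable_measure_prodMk_left (meas_lev A)).comp hg).ennreal_toReal
  refine ⟨fun A => ∫ ω, (volume (lev A fun z => f z ω)).toReal ∂μ,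
    fun A => integral_nonneg fun ω => ENNReal.toReal_nonneg, fun x y => ?_⟩
  have hi : Integrable (fun ω => |f x ω - f y ω|) μ :=
    ((L1.integrable_coeFn (f x)).sub (L1.integrable_coeFn (f y))).abs
  have h1 : ‖f x - f y‖ = ∫ ω, |f x ω - f y ω| ∂μ := by
    rw [L1.norm_eq_integral_norm]
    refine integral_congr_ae ?_
    filter_upwards [Lp.coeFn_sub (f x) (f y)] with ω hω
    rw [hω]
    rfl
  simp_rw [h1, ← integral_mul_const]
  rw [← integral_finsetSum]
  · exact integral_congr_ae (Eventually.of_forall fun ω => (sum_lev (fun z => f z ω) x y).symm)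
  · intro A _
    refine hi.mono' ((hm A).mul_const _).aestronglyMeasurable (Eventually.of_forall fun ω => ?_)
    rw [Real.norm_of_nonneg (mul_nonneg ENNReal.toReal_nonneg (ind_nonneg _ _)),
      ← sum_lev (fun z => f z ω) x y]
    exact Finset.single_le_sum (f := fun A => (volume (lev A fun z => f z ω)).toReal * ind A s(x, y))
      (fun A _ => mul_nonneg ENNReal.toReal_nonneg (ind_nonneg _ _)) (Finset.mem_univ A)

end cuts

variable {X : Type}

/-- the locally compact space of nonempty subsets -/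
abbrev NE (X : Type) : Type := {a : X → Bool // a ≠ fun _ => false}

instance : LocallyCompactSpace (NE X) :=
  (isOpen_ne (x := (fun _ => false : X → Bool))).locallyCompactSpace

/-- indicator of the membership of `x` -/
def bit (x : X) (a : X → Bool) : ℝ := if a x then 1 else 0

theorem bit_nonneg (x : X) (a : X → Bool) : 0 ≤ bit x a := by
  unfold bit
  split_ifs <;> norm_num

theorem cont_bit (x : X) : Continuous (bit x) :=
  (continuous_of_discreteTopology (f := fun b : Bool => if b then (1:ℝ) else 0)).comp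
    (continuous_apply x)

theorem compact_mem (x : X) : IsCompact {a : NE X | a.1 x = true} := by
  rw [Subtype.isCompact_iff]
  have : Subtype.val '' {a : NE X | a.1 x = true} = {a : X → Bool | a x = true} := by
    ext a
    constructor
    · rintro ⟨b, hb, rfl⟩
      exact hb
    · intro h
      exact ⟨⟨a, fun k => by simp [k] at h⟩, h, rfl⟩
  rw [this]
  exact (isClosed_eq (continuous_apply x) continuous_const).isCompact

/-- the cut function of a pair -/
noncomputable def cutF (x y : X) : C_c(NE X, ℝ) where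
  toFun a := |bit x a.1 - bit y a.1|
  continuous_toFun := (((cont_bit x).sub (cont_bit y)).abs).comp continuous_subtype_val
  hasCompactSupport' := by
    refine HasCompactSupport.intro ((compact_mem x).union (compact_mem y)) fun a ha => ?_
    simp only [mem_union, mem_ofPred_eq, not_or] at ha
    simp [bit, ha.1, ha.2]

open Classical in
/-- extension by zero -/
noncomputable def ext (φ : C_c(NE X, ℝ)) (a : X → Bool) : ℝ :=
  if h : a ≠ fun _ => false then φ ⟨a, h⟩ else 0

theorem ext_bound (φ : C_c(NE X, ℝ)) : ∃ (F : Finset X) (M : ℝ), 0 ≤ M ∧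
    ∀ a, |ext φ a| ≤ M * ∑ x ∈ F, bit x a := by
  obtain ⟨F, hF⟩ := φ.hasCompactSupport.isCompact.elim_finite_subcover
    (fun x : X => {a : NE X | a.1 x = true})
    (fun x => (isOpen_discrete ({true} : Set Bool)).preimage
      (show Continuous fun a : NE X => a.1 x from
        (continuous_apply x).comp continuous_subtype_val)) (fun a _ => by
      by_contra h
      simp only [mem_iUnion, mem_ofPred_eq, not_exists, Bool.not_eq_true] at h
      exact a.2 (funext h))
  obtain ⟨M, hM⟩ := φ.continuous.bounded_above_of_compact_support φ.hasCompactSupport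
  refine ⟨F, max M 0, le_max_right _ _, fun a => ?_⟩
  have h0 : 0 ≤ max M 0 * ∑ x ∈ F, bit x a :=
    mul_nonneg (le_max_right _ _) (Finset.sum_nonneg fun x _ => bit_nonneg x a)
  unfold ext
  split_ifs with h
  · by_cases hs : (⟨a, h⟩ : NE X) ∈ tsupport φ
    · obtain ⟨x, hx, hax⟩ := mem_iUnion₂.1 (hF hs)
      have h1 : (1:ℝ) ≤ ∑ x ∈ F, bit x a := by
        refine le_trans ?_ (Finset.single_le_sum (fun x _ => bit_nonneg x a) hx)
        simp only [mem_ofPred_eq] at hax
        simp [bit, hax]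
      exact ((hM _).trans (le_max_left M 0)).trans (le_mul_of_one_le_right (le_max_right _ _) h1)
    · rw [image_eq_zero_of_notMem_tsupport hs, abs_zero]
      exact h0
  · rw [abs_zero]
    exact h0

theorem ext_cutF (x y : X) (a : X → Bool) : ext (cutF x y) a = |bit x a - bit y a| := by
  unfold ext
  split_ifs with h
  · rfl
  · rw [not_not.1 h]
    simp [bit]

/-- finite systems of cuts which approximate `d` -/
theorem exists_system {d : X → X → ℝ} {C ε : ℝ} (x₀ : X) (S : Finset X) (hx : x₀ ∈ S)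
    {Ω : Type} [MeasurableSpace Ω] {μ : Measure Ω} (f : S → Lp ℝ 1 μ)
    (hf : ∀ x y : S, d x y ≤ ‖f x - f y‖ ∧ ‖f x - f y‖ ≤ C * d x y + ε) :
    ∃ (T : Finset (Set S)) (w : Set S → ℝ) (c : Set S → X → Bool), (∀ A, 0 ≤ w A) ∧
      (∀ x, ∑ A ∈ T, w A * bit x (c A) ≤ |C * d x x₀| + |ε|) ∧
      ∀ x ∈ S, ∀ y ∈ S, d x y ≤ ∑ A ∈ T, w A * |bit x (c A) - bit y (c A)| ∧
        ∑ A ∈ T, w A * |bit x (c A) - bit y (c A)| ≤ C * d x y + ε := by
  classical
  obtain ⟨w, hw, hs⟩ := cuts_of_L1 f
  set c : Set S → X → Bool := fun A x =>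
    decide (∃ h : x ∈ S, ¬ ((⟨x, h⟩ : S) ∈ A ↔ (⟨x₀, hx⟩ : S) ∈ A)) with hc
  have key : ∀ (A : Set S) (x y : S), |bit x.1 (c A) - bit y.1 (c A)| = ind A s(x, y) := by
    intro A x y
    unfold ind
    rw [crosses_mk]
    by_cases h1 : x ∈ A <;> by_cases h2 : y ∈ A <;> by_cases h3 : (⟨x₀, hx⟩ : S) ∈ A <;>
      simp [bit, hc, h1, h2, h3]
  have h0 : ∀ A, bit x₀ (c A) = 0 := fun A => by simp [bit, hc]
  refine ⟨Finset.univ, w, c, hw, fun x => ?_, fun x hx' y hy' => ?_⟩
  · by_cases h : x ∈ S
    · have h1 := (hf ⟨x, h⟩ ⟨x₀, hx⟩).2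
      rw [hs] at h1
      refine le_trans (le_of_eq (Finset.sum_congr rfl fun A _ => ?_))
        (h1.trans (add_le_add (le_abs_self _) (le_abs_self _)))
      rw [← key A ⟨x, h⟩ ⟨x₀, hx⟩, h0, sub_zero, abs_of_nonneg (bit_nonneg _ _)]
    · have : ∀ A, bit x (c A) = 0 := fun A => by simp [bit, hc, h]
      simp only [this, mul_zero, Finset.sum_const_zero]
      positivity
  · have h1 := hf ⟨x, hx'⟩ ⟨y, hy'⟩
    rw [hs] at h1
    simpa only [← key] using h1

/-- **compactness** -/
theorem embeds_of_finite {d : X → X → ℝ} {C : ℝ}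
    (h : ∀ (S : Finset X) (ε : ℝ), 0 < ε → ∃ (Ω : Type) (_ : MeasurableSpace Ω) (μ : Measure Ω)
      (f : S → Lp ℝ 1 μ), ∀ x y : S, d x y ≤ ‖f x - f y‖ ∧ ‖f x - f y‖ ≤ C * d x y + ε) :
    EmbedsL1 d C := by
  classical
  rcases isEmpty_or_nonempty X with hX | ⟨⟨x₀⟩⟩
  · exact ⟨Unit, ⊤, 0, fun x => 0, fun x => isEmptyElim x⟩
  have hsys : ∀ i : Finset X × ℕ, ∃ (T : Finset (Set (insert x₀ i.1 : Finset X)))
      (w : Set (insert x₀ i.1 : Finset X) → ℝ) (c : Set (insert x₀ i.1 : Finset X) → X → Bool),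
      (∀ A, 0 ≤ w A) ∧ (∀ x, ∑ A ∈ T, w A * bit x (c A) ≤ |C * d x x₀| + |1 / ((i.2:ℝ) + 1)|) ∧
      ∀ x ∈ insert x₀ i.1, ∀ y ∈ insert x₀ i.1,
        d x y ≤ ∑ A ∈ T, w A * |bit x (c A) - bit y (c A)| ∧
        ∑ A ∈ T, w A * |bit x (c A) - bit y (c A)| ≤ C * d x y + 1 / ((i.2:ℝ) + 1) := by
    intro i
    obtain ⟨Ω, _, μ, f, hf⟩ := h (insert x₀ i.1) (1 / ((i.2:ℝ) + 1)) (by positivity)
    exact exists_system x₀ _ (Finset.mem_insert_self _ _) f hf
  choose T w c hw hb hd using hsys
  set L : Finset X × ℕ → C_c(NE X, ℝ) → ℝ := fun i φ => ∑ A ∈ T i, w i A * ext φ (c i A) with hL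
  set U : Ultrafilter (Finset X × ℕ) := Ultrafilter.of atTop with hU
  have hUle : (U : Filter (Finset X × ℕ)) ≤ atTop := Ultrafilter.of_le _
  have hlim : ∀ φ, ∃ r, Tendsto (fun i => L i φ) U (𝓝 r) := by
    intro φ
    obtain ⟨F, M, hM, hF⟩ := ext_bound φ
    set B : ℝ := M * ∑ x ∈ F, (|C * d x x₀| + 1) with hB
    have hbd : ∀ i, L i φ ∈ Icc (-B) B := by
      intro i
      rw [mem_Icc, ← abs_le]
      calc |L i φ| ≤ ∑ A ∈ T i, |w i A * ext φ (c i A)| := Finset.abs_sum_le_sum_abs _ _
        _ ≤ ∑ A ∈ T i, w i A * (M * ∑ x ∈ F, bit x (c i A)) := by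
            refine Finset.sum_le_sum fun A _ => ?_
            rw [abs_mul, abs_of_nonneg (hw i A)]
            exact mul_le_mul_of_nonneg_left (hF _) (hw i A)
        _ = M * ∑ x ∈ F, ∑ A ∈ T i, w i A * bit x (c i A) := by
            rw [Finset.sum_comm, Finset.mul_sum]
            refine Finset.sum_congr rfl fun A _ => ?_
            rw [← Finset.mul_sum]
            ring
        _ ≤ B := by
            refine mul_le_mul_of_nonneg_left (Finset.sum_le_sum fun x _ => (hb i x).trans ?_) hM
            refine add_le_add le_rfl ?_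
            rw [abs_of_pos (by positivity)]
            exact div_le_one_of_le₀ (by linarith [Nat.cast_nonneg (α := ℝ) i.2]) (by positivity)
    obtain ⟨r, -, hr⟩ := isCompact_Icc.ultrafilter_le_nhds (U.map fun i => L i φ)
      (le_principal_iff.2 (mem_map.2 (univ_mem' hbd)))
    exact ⟨r, hr⟩
  choose Λ hΛ using hlim
  have hadd : ∀ φ ψ, Λ (φ + ψ) = Λ φ + Λ ψ := by
    intro φ ψ
    refine tendsto_nhds_unique (hΛ _) (((hΛ φ).add (hΛ ψ)).congr fun i => ?_)
    simp only [hL, ← Finset.sum_add_distrib, ← mul_add]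
    refine Finset.sum_congr rfl fun A _ => ?_
    unfold ext
    split_ifs <;> simp
  have hsmul : ∀ (r : ℝ) φ, Λ (r • φ) = r * Λ φ := by
    intro r φ
    refine tendsto_nhds_unique (hΛ _) (((hΛ φ).const_mul r).congr fun i => ?_)
    simp only [hL, Finset.mul_sum]
    refine Finset.sum_congr rfl fun A _ => ?_
    unfold ext
    split_ifs
    · simp only [CompactlySupportedContinuousMap.coe_smul, Pi.smul_apply, smul_eq_mul]
      ring
    · simp
  have hmono : Monotone Λ := by
    intro φ ψ hle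
    refine le_of_tendsto_of_tendsto' (hΛ φ) (hΛ ψ) fun i => Finset.sum_le_sum fun A _ =>
      mul_le_mul_of_nonneg_left ?_ (hw i A)
    unfold ext
    split_ifs
    · exact hle _
    · exact le_rfl
  let P : C_c(NE X, ℝ) →ₚ[ℝ] ℝ :=
    { toFun := Λ, map_add' := hadd, map_smul' := hsmul, monotone' := hmono }
  borelize (NE X)
  set μ := RealRMK.rieszMeasure P with hμ
  have hint : ∀ x : X, MemLp (fun a : NE X => bit x a.1) 1 μ := by
    intro x
    rw [memLp_one_iff_integrable]
    refine ((cont_bit x).comp continuous_subtype_val).integrable_of_hasCompactSupport ?_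
    refine HasCompactSupport.intro (compact_mem x) fun a ha => ?_
    simp only [mem_ofPred_eq] at ha
    simp [bit, ha]
  refine ⟨NE X, inferInstance, μ, fun x => (hint x).toLp _, fun x y => ?_⟩
  have h1 : ‖(hint x).toLp _ - (hint y).toLp _‖ = Λ (cutF x y) := by
    rw [← MemLp.toLp_sub, L1.norm_eq_integral_norm]
    refine Eq.trans (integral_congr_ae ?_) (RealRMK.integral_rieszMeasure P (cutF x y))
    filter_upwards [MemLp.coeFn_toLp ((hint x).sub (hint y))] with a ha
    rw [ha]
    rfl
  have hev : ∀ᶠ i : Finset X × ℕ in U, x ∈ insert x₀ i.1 ∧ y ∈ insert x₀ i.1 := by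
    refine hUle ?_
    filter_upwards [eventually_ge_atTop (({x, y} : Finset X), 0)] with i hi
    exact ⟨Finset.mem_insert_of_mem (hi.1 (by simp)), Finset.mem_insert_of_mem (hi.1 (by simp))⟩
  have hε : Tendsto (fun i : Finset X × ℕ => C * d x y + 1 / ((i.2:ℝ) + 1)) U
      (𝓝 (C * d x y + 0)) := by
    refine Tendsto.const_add _ (tendsto_one_div_add_atTop_nhds_zero_nat.comp ?_)
    refine Tendsto.mono_left ?_ hUle
    rw [← prod_atTop_atTop_eq]
    exact tendsto_snd
  rw [h1]
  refine ⟨ge_of_tendsto (hΛ _) (hev.mono fun i hi => ?_), ?_⟩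
  · simp only [hL, ext_cutF]
    exact (hd i x hi.1 y hi.2).1
  · rw [← add_zero (C * d x y)]
    refine le_of_tendsto_of_tendsto (hΛ _) hε (hev.mono fun i hi => ?_)
    simp only [hL, ext_cutF]
    exact (hd i x hi.1 y hi.2).2

end Vale.Agent.N235
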