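import Mathlib.Topology.EMetricSpace.BoundedVariation
import Mathlib.Topology.Connected.PathConnected
import Mathlib.Analysis.InnerProductSpace.PiL2
import Vale.Agent.P235F.Defs

/-! P235 (helper92): definitions used by the statement. -/

namespace Vale.Agent.N235

/-- `c₁(G) ≤ C`, and for finite `G` the multicommodity flow-cut gap is at most `C`. -/
def Bounded {V : Type} (G : SimpleGraph V) (C : ℝ) : Prop :=
  P235.DistortionLE G C ∧ (Finite V → P235F.GapLE G C)

/-- The metric space `X` embeds into `L₁` with distortion at most `C`. -/
def SpaceEmbeds (X : Type) [MetricSpace X] (C : ℝ) : Prop :=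
  P235.EmbedsL1 (fun x y : X => dist x y) C

/-- `X` is a length space: the distance of two points is the infimum of the lengths (total
variations) of the continuous paths that join them. -/
def IsLength (X : Type) [MetricSpace X] : Prop :=
  ∀ x y : X, edist x y = ⨅ γ : Path x y, eVariationOn γ Set.univ

/-- The unit sphere of Euclidean 3-space. -/
def Sphere2 : Set (EuclideanSpace ℝ (Fin 3)) := Metric.sphere 0 1

/-- There is a continuous injective map from `X` to the plane or to the 2-sphere. -/
def OnPlaneOrSphere (X : Type) [MetricSpace X] : Prop :=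
  (∃ φ : X → ℝ × ℝ, Continuous φ ∧ Function.Injective φ) ∨
    ∃ φ : X → Sphere2, Continuous φ ∧ Function.Injective φ

/-- `G` has a tree decomposition of width at most `k` (the tree may be infinite): a tree `T` with
bags `B t` of at most `k + 1` vertices, every edge lies in a bag, and the nodes whose bags contain
a given vertex form a nonempty subtree. -/
def TreeWidthLE {V : Type} (G : SimpleGraph V) (k : ℕ) : Prop :=
  ∃ (ι : Type) (T : SimpleGraph ι) (B : ι → Finset V), T.IsTree ∧
    (∀ u v, G.Adj u v → ∃ t, u ∈ B t ∧ v ∈ B t) ∧
    (∀ v, (T.induce {t | v ∈ B t}).Connected) ∧ ∀ t, (B t).card ≤ k + 1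

/-- The graph `H` is a minor of the space `X`: there are pairwise disjoint path-connected (so
nonempty) sets `B a ⊆ X`, one for each vertex `a` of `H`, such that `B a ∪ B b` is path-connected
whenever `a` and `b` are adjacent. -/
def SpaceMinor {W : Type} (H : SimpleGraph W) (X : Type) [MetricSpace X] : Prop :=
  ∃ B : W → Set X, (∀ a, IsPathConnected (B a)) ∧ (∀ a b, a ≠ b → Disjoint (B a) (B b)) ∧
    ∀ a b, H.Adj a b → IsPathConnected (B a ∪ B b)

end Vale.Agent.N235
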