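import Vale.Agent.N235.Arcs
import Vale.Agent.N235.Defs
import Mathlib.Geometry.Manifold.Instances.Sphere
import Mathlib.Topology.Baire.CompleteMetrizable
import Mathlib.Topology.Baire.Lemmas

/-! P235 (helper92): length spaces have almost geodesic arcs; finitely many arcs on the sphere
lie in a plane chart. -/

namespace Vale.Agent.N235

open Set unitInterval

variable {X : Type} [MetricSpace X]

theorem reparam {x y : X} (γ : Path x y) (F : I → ℝ)
    (hF : ∀ s t, s ≤ t → dist (γ s) (γ t) ≤ F t - F s) (h0 : F 0 = 0) :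
    ∃ ζ : ℝ → X, (∀ u v, dist (ζ u) (ζ v) ≤ |u - v|) ∧ ζ 0 = x ∧ ζ (F 1) = y ∧
      ∀ u, ζ u ∈ range γ := by
  have hm : Monotone F := fun s t h => sub_nonneg.1 (dist_nonneg.trans (hF s t h))
  set τ : ℝ → I := fun u => sSup {t | F t ≤ u} with hτ
  have key : ∀ u v, u ≤ v → dist (γ (τ u)) (γ (τ v)) ≤ v - u := by
    intro u v huv
    have hle : τ u ≤ τ v := sSup_le_sSup fun t ht => le_trans ht huv
    rcases hle.eq_or_lt with h | h
    · rw [h, dist_self]
      exact sub_nonneg.2 huv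
    have h1 : ∀ s ∈ Ioo (τ u) (τ v), dist (γ s) (γ (τ v)) ≤ v - u := by
      intro s hs
      have hs' : u < F s := not_le.1 fun h => not_le.2 hs.1 (le_sSup h)
      have : closure (Ico s (τ v)) ⊆ {t | dist (γ s) (γ t) ≤ v - u} := by
        refine closure_minimal (fun t ht => ?_) (isClosed_le (by fun_prop) continuous_const)
        obtain ⟨t', h1, h2⟩ := lt_sSup_iff.1 ht.2
        have := hF s t ht.1
        have := hm h2.le
        have : F t' ≤ v := h1
        simp only [mem_ofPred_eq]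
        linarith
      exact this (by rw [closure_Ico hs.2.ne]; exact ⟨hs.2.le, le_rfl⟩)
    have : closure (Ioo (τ u) (τ v)) ⊆ {s | dist (γ s) (γ (τ v)) ≤ v - u} :=
      closure_minimal h1 (isClosed_le (by fun_prop) continuous_const)
    exact this (by rw [closure_Ioo h.ne]; exact ⟨le_rfl, h.le⟩)
  refine ⟨fun u => γ (τ u), fun u v => ?_, ?_, ?_, fun u => ⟨_, rfl⟩⟩
  · rcases le_total u v with h | h
    · rw [abs_sub_comm, abs_of_nonneg (sub_nonneg.2 h)]
      exact key u v h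
    · rw [abs_of_nonneg (sub_nonneg.2 h), dist_comm]
      exact key v u h
  · refine (dist_le_zero.1 (le_of_forall_pos_le_add fun δ hδ => ?_)).symm
    have e : τ (-δ) = 0 := by
      have : {t | F t ≤ -δ} = ∅ := eq_empty_of_forall_notMem fun t ht => by
        have h1 := hm (nonneg' (t := t))
        have h2 : F t ≤ -δ := ht
        linarith
      simp only [hτ, this, sSup_empty]
      rfl
    simpa [e] using key (-δ) 0 (by linarith)
  · have e : τ (F 1) = 1 := le_antisymm le_one' (le_sSup (le_refl (F 1)))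
    simp [e]

theorem exists_arc {x y : X} {K : Set X} (hK : IsCompact K) {L₀ : ℝ} (hL : 0 ≤ L₀) {ζ₀ : ℝ → X}
    (h1 : ∀ u v, dist (ζ₀ u) (ζ₀ v) ≤ |u - v|) (h2 : ζ₀ 0 = x) (h3 : ζ₀ L₀ = y)
    (h4 : ∀ u, ζ₀ u ∈ K) : ∃ g : Arc X, g.a ≤ g.b ∧ g.γ g.a = x ∧ g.γ g.b = y ∧ g.b - g.a ≤ L₀ := by
  set Z : Set (ℝ × (ℝ → X)) := (Icc 0 L₀ ×ˢ pi univ fun _ => K) ∩
    {q | (∀ u v, dist (q.2 u) (q.2 v) ≤ |u - v|) ∧ q.2 0 = x ∧ ∀ u, dist (q.2 u) y ≤ |u - q.1|}
    with hZ
  have hc : IsCompact Z := by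
    refine (isCompact_Icc.prod (isCompact_univ_pi fun _ => hK)).inter_right ?_
    simp only [ofPred_and, ofPred_forall]
    exact (isClosed_iInter fun u => isClosed_iInter fun v =>
      isClosed_le (by fun_prop) (by fun_prop)).inter ((isClosed_eq (by fun_prop) (by fun_prop)).inter
        (isClosed_iInter fun u => isClosed_le (by fun_prop) (by fun_prop)))
  obtain ⟨⟨L, ζ⟩, ⟨⟨hL', hζK⟩, l1, l2, l3⟩, hmin⟩ := hc.exists_isMinOn
    ⟨(L₀, ζ₀), ⟨⟨hL, le_rfl⟩, fun u _ => h4 u⟩, h1, h2, fun u => h3 ▸ h1 u L₀⟩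
    continuous_fst.continuousOn
  dsimp only at hL' hζK l1 l2 l3
  have hy : ζ L = y := by simpa using l3 L
  have key : ∀ s ∈ Icc 0 L, ∀ t ∈ Icc 0 L, s < t → ζ s ≠ ζ t := by
    intro s hs t ht hst e
    set ζ' : ℝ → X := fun u => ζ (if u ≤ s then u else u + (t - s)) with hζ'
    have m : ∀ u v, u ≤ v → dist (ζ' u) (ζ' v) ≤ v - u := by
      intro u v huv
      simp only [hζ']
      split_ifs with a b b
      · exact (l1 _ _).trans_eq (by rw [abs_sub_comm, abs_of_nonneg (sub_nonneg.2 huv)])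
      · have a1 := l1 u s
        have a2 := l1 t (v + (t - s))
        rw [abs_of_nonpos (by linarith)] at a1 a2
        have := dist_triangle (ζ u) (ζ s) (ζ (v + (t - s)))
        rw [e] at this a1
        linarith
      · exact absurd (huv.trans b) a
      · exact (l1 _ _).trans_eq (by rw [abs_of_nonpos (by linarith)]; ring)
    have m' : ∀ u v, dist (ζ' u) (ζ' v) ≤ |u - v| := by
      intro u v
      rcases le_total u v with h | h
      · rw [abs_sub_comm, abs_of_nonneg (sub_nonneg.2 h)]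
        exact m u v h
      · rw [abs_of_nonneg (sub_nonneg.2 h), dist_comm]
        exact m v u h
    have my : ζ' (L - (t - s)) = y := by
      simp only [hζ']
      split_ifs with a
      · have : t = L := by linarith [ht.2]
        rw [← hy, ← this, ← e, sub_sub_cancel]
      · rw [sub_add_cancel, hy]
    have : L ≤ L - (t - s) := hmin (a := (L - (t - s), ζ'))
      ⟨⟨⟨by linarith [hs.1, ht.2], by linarith [hL'.2]⟩, fun u _ => hζK _ trivial⟩, m',
        by simp [hζ', hs.1, l2], fun u => my ▸ m' u _⟩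
    linarith
  refine ⟨⟨ζ, 0, L, LipschitzWith.of_dist_le_mul fun u v => by simpa [Real.dist_eq] using l1 u v,
    fun s hs t ht e => ?_⟩, hL'.1, l2, hy, by simpa using hL'.2⟩
  rcases lt_trichotomy s t with h | h | h
  · exact absurd e (key s hs t ht h)
  · exact h
  · exact absurd e.symm (key t ht s hs h)

theorem IsLength.arcLength (h : IsLength X) : ArcLength X := by
  intro x y η hη
  have h1 : ⨅ γ : Path x y, eVariationOn γ univ < ENNReal.ofReal (dist x y + η) := by
    rw [← h x y, edist_dist]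
    exact (ENNReal.ofReal_lt_ofReal_iff (by positivity)).2 (by linarith)
  obtain ⟨γ, hγ⟩ := iInf_lt_iff.1 h1
  have hfin : ∀ s : Set I, eVariationOn γ s ≠ ⊤ := fun s =>
    ne_top_of_le_ne_top hγ.ne_top (eVariationOn.mono _ (subset_univ s))
  obtain ⟨ζ, s1, s2, s3, s4⟩ := reparam γ (fun t => (eVariationOn γ (univ ∩ Icc 0 t)).toReal)
    (fun s t hst => by
      rw [← eVariationOn.Icc_add_Icc γ nonneg' hst (mem_univ s),
        ENNReal.toReal_add (hfin _) (hfin _), add_sub_cancel_left, dist_edist]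
      exact ENNReal.toReal_mono (hfin _) (eVariationOn.edist_le γ ⟨trivial, le_rfl, hst⟩
        ⟨trivial, hst, le_rfl⟩))
    (by simp [eVariationOn.subsingleton])
  obtain ⟨g, g1, g2, g3, g4⟩ := exists_arc (isCompact_range γ.continuous) ENNReal.toReal_nonneg
    s1 s2 s3 s4
  refine ⟨g, g1, g2, g3, g4.trans (ENNReal.toReal_le_of_le_ofReal (by positivity) ?_)⟩
  exact (eVariationOn.mono _ (subset_univ _)).trans hγ.le

/-- the image of an arc under a continuous injection contains no disc -/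
theorem no_disc {Y : Type} [TopologicalSpace Y] [T2Space Y] {φ : X → Y} (hφ : Continuous φ)
    (hi : Function.Injective φ) {ψ : ℝ × ℝ → Y} (hψ : Continuous ψ) (hj : Function.Injective ψ)
    (A : Arc X) : interior (ψ ⁻¹' (φ '' A.img)) = ∅ := by
  refine eq_empty_of_forall_notMem fun c hc => ?_
  obtain ⟨r, hr, hb⟩ := Metric.mem_nhds_iff.1 (mem_interior_iff_mem_nhds.1 hc)
  set z : ℝ → ℝ × ℝ := fun θ => c + (r / 2 * Real.cos θ, r / 2 * Real.sin θ) with hz
  have hzb : ∀ θ, z θ ∈ Metric.ball c r := by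
    intro θ
    have a1 := Real.abs_cos_le_one θ
    have a2 := Real.abs_sin_le_one θ
    simp only [hz, Metric.mem_ball, dist_self_add_left, Prod.norm_mk, Real.norm_eq_abs, abs_mul,
      abs_of_pos (half_pos hr), max_lt_iff]
    constructor <;> nlinarith
  set j : Icc A.a A.b → Y := fun t => φ (A.γ t) with hjd
  have hjc : Continuous j := hφ.comp (A.lip.continuous.comp continuous_subtype_val)
  have hji : Function.Injective j := fun s t e => Subtype.ext (A.inj s.2 t.2 (hi e))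
  have hg : ∀ θ, ∃ t, j t = ψ (z θ) := fun θ => by
    obtain ⟨_, ⟨t, ht, rfl⟩, e⟩ := hb (hzb θ)
    exact ⟨⟨t, ht⟩, e⟩
  choose g hg using hg
  have hgc : Continuous g := (hjc.isClosedEmbedding hji).isInducing.continuous_iff.2 (by
    have : j ∘ g = ψ ∘ z := funext hg
    rw [this]
    exact hψ.comp (by fun_prop))
  have h2 : g (Real.pi + Real.pi) = g 0 := hji (by
    rw [hg, hg]
    simp [hz, Real.cos_add, Real.sin_add])
  obtain ⟨θ, hθ⟩ : ∃ θ, (g θ : ℝ) = g (θ + Real.pi) := by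
    have c1 : Continuous fun θ => (g θ : ℝ) := by fun_prop
    have c2 : Continuous fun θ => (g (θ + Real.pi) : ℝ) := by fun_prop
    rcases le_total (g 0 : ℝ) (g Real.pi) with h | h
    · exact intermediate_value_univ₂ (a := 0) (b := Real.pi) c1 c2 (by simpa using h)
        (by simpa [h2] using h)
    · obtain ⟨θ, e⟩ := intermediate_value_univ₂ (a := 0) (b := Real.pi) c2 c1 (by simpa using h)
        (by simpa [h2] using h)
      exact ⟨θ, e.symm⟩
  have e : z θ = z (θ + Real.pi) := hj (by rw [← hg, ← hg, Subtype.ext hθ])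
  simp only [hz, add_right_inj, Prod.mk.injEq, Real.cos_add_pi, Real.sin_add_pi] at e
  have a1 : Real.cos θ = 0 := by nlinarith [e.1]
  have a2 : Real.sin θ = 0 := by nlinarith [e.2]
  simpa [a1, a2] using Real.sin_sq_add_cos_sq θ

theorem chart (v : Sphere2) : ∃ (e : Sphere2 → ℝ × ℝ) (ψ : ℝ × ℝ → Sphere2),
    ContinuousOn e {v}ᶜ ∧ InjOn e {v}ᶜ ∧ Continuous ψ ∧ Function.Injective ψ := by
  have : Fact (Module.finrank ℝ (EuclideanSpace ℝ (Fin 3)) = 2 + 1) := ⟨by simp⟩
  let s := stereographic' (E := EuclideanSpace ℝ (Fin 3)) 2 v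
  let L : EuclideanSpace ℝ (Fin 2) ≃L[ℝ] ℝ × ℝ :=
    (EuclideanSpace.equiv (Fin 2) ℝ).trans (ContinuousLinearEquiv.finTwoArrow ℝ ℝ)
  have h1 : s.source = {v}ᶜ := stereographic'_source v
  have h2 : s.target = univ := stereographic'_target v
  refine ⟨fun a => L (s a), fun b => s.symm (L.symm b),
    L.continuous.comp_continuousOn (h1 ▸ s.continuousOn), L.injective.comp_injOn (h1 ▸ s.injOn),
    (continuousOn_univ.1 (h2 ▸ s.continuousOn_symm)).comp L.symm.continuous,
    (injOn_univ.1 (h2 ▸ s.symm.injOn)).comp L.symm.injective⟩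

theorem OnPlaneOrSphere.flat (h : OnPlaneOrSphere X) : Flat (ℝ × ℝ) X := by
  intro 𝒜 Q hQ
  rcases h with ⟨φ, h1, h2⟩ | ⟨φ, h1, h2⟩
  · exact ⟨φ, h1.continuousOn, h2.injOn⟩
  obtain ⟨-, ψ, -, -, c, i⟩ := chart ⟨EuclideanSpace.single 0 1, by simp [Sphere2]⟩
  let pt : X → Arc X := fun q => ⟨fun _ => q, 0, 0, (LipschitzWith.const q).weaken zero_le_one,
    by simp⟩
  have hf : ((𝒜 : Set (Arc X)) ∪ pt '' Q).Finite := 𝒜.finite_toSet.union (hQ.image _)
  have := hf.countable.to_subtype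
  obtain ⟨b, hb⟩ : ∃ b, b ∉ ⋃ A : ↥((𝒜 : Set (Arc X)) ∪ pt '' Q), ψ ⁻¹' (φ '' A.1.img) := by
    by_contra hn
    push Not at hn
    obtain ⟨A, hA⟩ := nonempty_interior_of_iUnion_of_closed
      (fun A : ↥((𝒜 : Set (Arc X)) ∪ pt '' Q) => ((A.1.compact.image h1).isClosed).preimage c)
      (eq_univ_of_forall hn)
    exact hA.ne_empty (no_disc h1 h2 c i A.1)
  obtain ⟨e, -, e1, e2, -⟩ := chart (ψ b)
  have hm : MapsTo φ (Q ∪ ⋃ A ∈ 𝒜, A.img) {ψ b}ᶜ := by
    intro z hz e
    refine hb (mem_iUnion.2 ?_)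
    rcases hz with hz | hz
    · exact ⟨⟨pt z, Or.inr ⟨z, hz, rfl⟩⟩, z, ⟨0, ⟨le_rfl, le_rfl⟩, rfl⟩, e⟩
    · obtain ⟨A, hA, hz⟩ := mem_iUnion₂.1 hz
      exact ⟨⟨A, Or.inl hA⟩, z, hz, e⟩
  exact ⟨e ∘ φ, e1.comp h1.continuousOn hm, e2.comp h2.injOn hm⟩

end Vale.Agent.N235
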