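import Vale.Agent.N235.Minor
import Vale.Agent.P235U99.Main

/-! P235 (helper92): assembly. -/

namespace Vale.Agent.N235

open Vale.Agent.P235 Vale.Agent.P235.H134 Vale.Agent.P235F Vale.Agent.P235U

theorem bounded_of {V : Type} {G : SimpleGraph V} (hG : G.Connected) {C : ℝ}
    (h : DistortionLE G C) : Bounded G C := ⟨h, fun _ => gap_of hG h⟩

theorem restrict_emb {V W : Type} [Finite W] {G : SimpleGraph V} {H : SimpleGraph W} (e : H ↪g G)
    (hc : H.Connected) {C : ℝ} (h : DistortionLE G C) : DistortionLE H C :=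
  have h1 := e.isoInduceRange.connected_iff.1 hc
  (restrict h _ (Set.finite_range e) h1).iso e.isoInduceRange.symm h1

theorem apex : ∃ A : ℝ, ∀ K : ℝ, 0 ≤ K → ∀ (V : Type) (G : SimpleGraph V), G.Connected →
    ∀ S : Finset V, (∀ u ∉ S, DistortionLE (G.induce (compSet G S u)) K) →
      Bounded G (A * (K + Real.log (S.card + 2))) := by
  obtain ⟨A, -, h⟩ := apex_log'
  refine ⟨A, fun K hK V G hG S hS => bounded_of hG (transfer hG fun P hP hc => ?_)⟩
  have := hP.to_subtype
  refine h K hK S.card P _ hc (Subtype.val ⁻¹' S) ?_ fun u hu => ?_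
  · rw [← Set.ncard_coe_finset]
    exact Set.ncard_le_ncard_of_injOn Subtype.val (fun a ha => ha) Subtype.val_injective.injOn
  · have m : ∀ v ∈ compSet (G.induce P) (Subtype.val ⁻¹' S) u, v.1 ∈ compSet G S u := by
      rintro v ⟨w, hw⟩
      refine ⟨w.map (SimpleGraph.Embedding.induce P).toHom, fun a ha => ?_⟩
      have e := SimpleGraph.Walk.support_map (SimpleGraph.Embedding.induce P).toHom w
      obtain ⟨c, hc, rfl⟩ := List.mem_map.1 (e ▸ ha)
      exact hw c hc
    exact restrict_emb (G := G.induce (compSet G S u)) ⟨⟨fun v => ⟨v.1.1, m _ v.2⟩,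
      fun a b e => Subtype.ext (Subtype.ext (Subtype.mk.inj e))⟩, Iff.rfl⟩
      (comp_connected hu) (hS u hu)

theorem main :
    (∃ C : ℝ,
      (∀ (V : Type) (G : SimpleGraph V), G.Connected → Planar G → Bounded G C) ∧
      ∀ (X : Type) [MetricSpace X], IsLength X → OnPlaneOrSphere X → SpaceEmbeds X C) ∧
    (∀ k : ℕ, ∃ C : ℝ, ∀ (V : Type) (G : SimpleGraph V), G.Connected → TreeWidthLE G k →
      Bounded G C) ∧
    (∃ A : ℝ, ∀ (g : ℕ) (V : Type) [Finite V] (G : SimpleGraph V), G.Connected → OnSurface g G →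
      Bounded G (A * Real.log (g + 2))) ∧
    (∀ (W : Type) [Finite W] (H : SimpleGraph W), H.Connected → AtMostOneX H →
      (∀ F : (V : Type) → SimpleGraph V → Prop, MinorClosed F → ¬ F W H →
        ∃ C : ℝ, ∀ (V : Type) [Finite V] (G : SimpleGraph V), G.Connected → F V G → Bounded G C) ∧
      ∃ C : ℝ, (∀ (V : Type) (G : SimpleGraph V), G.Connected → ¬ IsMinor H G → Bounded G C) ∧
        ∀ (X : Type) [MetricSpace X], IsLength X → ¬ SpaceMinor H X → SpaceEmbeds X C) ∧
    (∃ A : ℝ, ∀ K : ℝ, 0 ≤ K → ∀ (V : Type) (G : SimpleGraph V), G.Connected →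
      ∀ S : Finset V, (∀ u ∉ S, DistortionLE (G.induce (compSet G S u)) K) →
        Bounded G (A * (K + Real.log (S.card + 2)))) ∧
    (∀ (V : Type) (G : SimpleGraph V) (C : ℝ), G.Connected → (DistortionLE G C ↔
      ∀ P : Set V, P.Finite → (G.induce P).Connected → DistortionLE (G.induce P) C)) ∧
    ∀ (W : Type) (H : SimpleGraph W) (C : ℝ),
      (∀ (V : Type) [Finite V] (G : SimpleGraph V), G.Connected → ¬ IsMinor H G →
        DistortionLE G C) →
      ∀ (X : Type) [MetricSpace X], IsLength X → ¬ SpaceMinor H X → SpaceEmbeds X C := by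
  obtain ⟨⟨C, h1⟩, h2, -⟩ := Vale.Agent.P235Z.final
  obtain ⟨A, -, h3⟩ := surf
  refine ⟨⟨C, fun V G hG h => bounded_of hG (transfer hG fun P hP hc => ?_),
    fun X _ hX h => embeds_of_flat h1 hX.arcLength h.flat⟩, fun k => ?_,
    ⟨A, fun g V _ G hG h => bounded_of hG (h3 g V G hG h)⟩, fun W _ H hH hx => ⟨fun F hF hn => ?_,
    ?_⟩, apex, fun V G C hG => ⟨fun h P hP hc => restrict h P hP hc, transfer hG⟩,
    fun W H C h => embeds_of_no_minor h⟩
  · have := hP.to_subtype
    exact h1 P _ hc (planar_induce h P)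
  · obtain ⟨C, h⟩ := h2 k
    refine ⟨C, fun V G hG h' => bounded_of hG (transfer hG fun P hP hc => ?_)⟩
    have := hP.to_subtype
    exact h P _ hc (tw_induce h' P hP)
  · obtain ⟨C, h⟩ := family F hF ⟨W, inferInstance, H, hH, hx, hn⟩
    exact ⟨C, fun V _ G hG h' => bounded_of hG (h V G hG h').1⟩
  · obtain ⟨C, h⟩ := K5.H56.Z.xPiece_free (xp hH hx)
    refine ⟨C, fun V G hG h' => bounded_of hG (transfer hG fun P hP hc => ?_),
      embeds_of_no_minor h⟩
    have := hP.to_subtype
    exact h P _ hc fun hm => h' (minor_of_induce hm)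

end Vale.Agent.N235
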