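import Vale.Agent.N235.Length

/-! P235 (helper92): minors of metric spaces; infinite tree decompositions. -/

namespace Vale.Agent.N235

open Vale.Agent.P235 Vale.Agent.P235F Vale.Agent.P235.H134 Set
open SimpleGraph hiding dist dist_comm

theorem Drawn.spaceMinor {X V : Type} [MetricSpace X] {G : SimpleGraph V} (h : Drawn X G) :
    SpaceMinor G X := by
  obtain ⟨p, γ, h1, h2, h3, h4, h5⟩ := h
  let L : V → Sym2 V → Set X := fun u e => {z | e ∈ G.edgeSet ∧
    ((γ e 0 = p u ∧ z ∈ γ e '' Icc 0 (1 / 2)) ∨ (γ e 1 = p u ∧ z ∈ γ e '' Ioc (1 / 2) 1))}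
  have s1 : Icc (0:ℝ) (1 / 2) ⊆ Icc 0 1 := Icc_subset_Icc_right (by norm_num)
  have s2 : Ioc (1 / 2 : ℝ) 1 ⊆ Icc 0 1 := fun t ht => ⟨by linarith [ht.1], ht.2⟩
  have i0 : (0:ℝ) ∈ Icc (0:ℝ) 1 := by simp
  have i1 : (1:ℝ) ∈ Icc (0:ℝ) 1 := by simp
  have hsub : ∀ u e, ∀ z ∈ L u e, z ∈ γ e '' Icc 0 1 := fun u e z hz =>
    hz.2.elim (fun h => image_mono s1 h.2) fun h => image_mono s2 h.2
  have hends : ∀ e ∈ G.edgeSet, ∀ c ∈ e, γ e 0 = p c ∨ γ e 1 = p c := by
    intro e he c hc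
    obtain ⟨d, rfl⟩ := Sym2.mem_iff_exists.1 hc
    have : p c ∈ ({γ s(c, d) 0, γ s(c, d) 1} : Set X) := h3 c d he ▸ mem_insert _ _
    exact this.imp Eq.symm Eq.symm
  have hvert : ∀ u c e, p c ∈ L u e → c = u := by
    intro u c e hz
    have inj := (h2 e hz.1).2
    rcases hends e hz.1 c (h4 e hz.1 c (hsub u e _ hz)) with k | k <;>
      rcases hz.2 with ⟨a, t, ht, b⟩ | ⟨a, t, ht, b⟩
    · exact h1 (k.symm.trans a)
    · have := inj (s2 ht) i0 (b.trans k.symm)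
      linarith [ht.1]
    · have := inj (s1 ht) i1 (b.trans k.symm)
      linarith [ht.2]
    · exact h1 (k.symm.trans a)
  have hpc : ∀ u, IsPathConnected ({p u} ∪ ⋃ e, L u e) := by
    refine fun u => ⟨p u, Or.inl rfl, ?_⟩
    rintro z (rfl | hz)
    · exact JoinedIn.refl (Or.inl rfl)
    obtain ⟨e, he, ⟨a, hz⟩ | ⟨a, hz⟩⟩ := mem_iUnion.1 hz
    · exact ((((convex_Icc 0 (1 / 2)).isPathConnected ⟨0, by simp⟩).image'
        ((h2 e he).1.mono s1)).joinedIn _ ⟨0, by simp, a⟩ _ hz).mono fun w hw =>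
          Or.inr (mem_iUnion.2 ⟨e, he, Or.inl ⟨a, hw⟩⟩)
    · exact ((((convex_Ioc (1 / 2) 1).isPathConnected ⟨1, by norm_num⟩).image'
        ((h2 e he).1.mono s2)).joinedIn _ ⟨1, by norm_num, a⟩ _ hz).mono fun w hw =>
          Or.inr (mem_iUnion.2 ⟨e, he, Or.inr ⟨a, hw⟩⟩)
  refine ⟨fun u => {p u} ∪ ⋃ e, L u e, hpc, fun u v huv => disjoint_left.2 ?_, fun u v huv => ?_⟩
  · rintro z (rfl | hu) (hv | hv)
    · exact huv (h1 hv)
    · obtain ⟨e, he⟩ := mem_iUnion.1 hv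
      exact huv (hvert _ _ e he)
    · obtain ⟨e, he⟩ := mem_iUnion.1 hu
      exact huv (hvert _ _ e (hv ▸ he)).symm
    obtain ⟨e, he⟩ := mem_iUnion.1 hu
    obtain ⟨e', he'⟩ := mem_iUnion.1 hv
    by_cases hee : e = e'
    · subst hee
      have inj := (h2 e he.1).2
      rcases he.2 with ⟨a, t, ht, b⟩ | ⟨a, t, ht, b⟩ <;>
        rcases he'.2 with ⟨a', t', ht', b'⟩ | ⟨a', t', ht', b'⟩
      · exact huv (h1 (a.symm.trans a'))
      · have := inj (s1 ht) (s2 ht') (b.trans b'.symm)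
        linarith [ht.2, ht'.1]
      · have := inj (s2 ht) (s1 ht') (b.trans b'.symm)
        linarith [ht.1, ht'.2]
      · exact huv (h1 (a.symm.trans a'))
    · obtain ⟨c, rfl⟩ := h5 e he.1 e' he'.1 hee ⟨hsub _ _ _ he, hsub _ _ _ he'⟩
      exact huv ((hvert _ _ e he).symm.trans (hvert _ _ e' he'))
  · have harc : IsPathConnected (γ s(u, v) '' Icc 0 1) :=
      ((convex_Icc 0 1).isPathConnected ⟨0, i0⟩).image' (h2 _ huv).1
    have hm : ∀ c ∈ s(u, v), p c ∈ γ s(u, v) '' Icc 0 1 := fun c hc =>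
      (hends _ huv c hc).elim (fun k => ⟨0, i0, k⟩) fun k => ⟨1, i1, k⟩
    have := ((hpc u).union harc ⟨p u, Or.inl rfl, hm u (by simp)⟩).union (hpc v)
      ⟨p v, Or.inr (hm v (by simp)), Or.inl rfl⟩
    convert this using 1
    refine subset_antisymm (union_subset_union_left _ subset_union_left)
      (union_subset (union_subset subset_union_left ?_) subset_union_right)
    rintro _ ⟨t, ht, rfl⟩
    have k0 : γ s(u, v) 0 ∈ ({p u, p v} : Set X) := h3 u v huv ▸ mem_insert _ _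
    have k1 : γ s(u, v) 1 ∈ ({p u, p v} : Set X) := h3 u v huv ▸ mem_insert_of_mem _ rfl
    rcases le_or_gt t (1 / 2) with h | h
    · exact k0.imp (fun k => Or.inr (mem_iUnion.2 ⟨_, huv, Or.inl ⟨k, t, ⟨ht.1, h⟩, rfl⟩⟩))
        fun k => Or.inr (mem_iUnion.2 ⟨_, huv, Or.inl ⟨k, t, ⟨ht.1, h⟩, rfl⟩⟩)
    · exact k1.imp (fun k => Or.inr (mem_iUnion.2 ⟨_, huv, Or.inr ⟨k, t, ⟨h, ht.2⟩, rfl⟩⟩))
        fun k => Or.inr (mem_iUnion.2 ⟨_, huv, Or.inr ⟨k, t, ⟨h, ht.2⟩, rfl⟩⟩)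

theorem SpaceMinor.of_minor {X V W : Type} [MetricSpace X] {G : SimpleGraph V} {H : SimpleGraph W}
    (h : SpaceMinor G X) (hm : IsMinor H G) : SpaceMinor H X := by
  obtain ⟨B, b1, b2, b3⟩ := h
  obtain ⟨μ, m1, m2, m3⟩ := hm
  have hpc : ∀ a, IsPathConnected (⋃ u ∈ μ a, B u) := by
    intro a
    obtain ⟨u₀⟩ := (m1 a).nonempty
    obtain ⟨z₀, hz₀⟩ := (b1 u₀).nonempty
    refine ⟨z₀, mem_biUnion u₀.2 hz₀, fun z hz => ?_⟩
    obtain ⟨u, hu, hz⟩ := mem_iUnion₂.1 hz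
    obtain ⟨w⟩ := m1 a u₀ ⟨u, hu⟩
    have key : ∀ {s t : μ a} (_ : (G.induce (μ a)).Walk s t), ∀ y ∈ B s, ∀ z ∈ B t,
        JoinedIn (⋃ u ∈ μ a, B u) y z := by
      intro s t w
      induction w with
      | @nil s => exact fun y hy z hz =>
          ((b1 s).joinedIn y hy z hz).mono (subset_biUnion_of_mem (u := B) s.2)
      | @cons s r t h w ih =>
        intro y hy z hz
        obtain ⟨x, hx⟩ := (b1 r).nonempty
        exact (((b3 s r h).joinedIn y (Or.inl hy) x (Or.inr hx)).mono (union_subset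
          (subset_biUnion_of_mem (u := B) s.2) (subset_biUnion_of_mem (u := B) r.2))).trans
            (ih x hx z hz)
    exact key w _ hz₀ _ hz
  refine ⟨fun a => ⋃ u ∈ μ a, B u, hpc, fun a b hab => disjoint_iUnion₂_left.2 fun u hu =>
    disjoint_iUnion₂_right.2 fun v hv => b2 u v fun e => disjoint_left.1 (m2 a b hab) hu (e ▸ hv),
    fun a b hab => ?_⟩
  obtain ⟨x, hx, y, hy, hxy⟩ := m3 a b hab
  obtain ⟨s, hs⟩ := (b1 x).nonempty
  obtain ⟨t, ht⟩ := (b1 y).nonempty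
  have := ((hpc a).union (b3 x y hxy) ⟨s, mem_biUnion hx hs, Or.inl hs⟩).union (hpc b)
    ⟨t, Or.inr (Or.inr ht), mem_biUnion hy ht⟩
  convert this using 1
  exact subset_antisymm (union_subset_union_left _ subset_union_left)
    (union_subset (union_subset subset_union_left (union_subset_union
      (subset_biUnion_of_mem (u := B) hx) (subset_biUnion_of_mem (u := B) hy))) subset_union_right)

theorem embeds_of_no_minor {W : Type} {H : SimpleGraph W} {C : ℝ}
    (hC : ∀ (V : Type) [Finite V] (G : SimpleGraph V), G.Connected → ¬ IsMinor H G →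
      DistortionLE G C) (X : Type) [MetricSpace X] (hX : IsLength X) (hn : ¬ SpaceMinor H X) :
    EmbedsL1 (fun x y : X => dist x y) C :=
  embeds_of_flat (Y := X) (fun V _ G hc hd => hC V G hc fun hm => hn (hd.spaceMinor.of_minor hm))
    hX.arcLength fun _ _ _ => ⟨id, continuousOn_id, injOn_id _⟩

theorem mem_of_map {V : Type} {G : SimpleGraph V} {S : Set V} {a b : S}
    (w : (G.induce S).Walk a b) : ∀ u ∈ (w.map (Embedding.induce S).toHom).support, u ∈ S := by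
  intro u hu
  rw [Walk.support_map] at hu
  obtain ⟨c, -, rfl⟩ := List.mem_map.1 hu
  exact c.2

theorem tw_induce {V : Type} {G : SimpleGraph V} {k : ℕ} (h : TreeWidthLE G k) (P : Set V)
    (hP : P.Finite) : TreewidthLE (G.induce P) k := by
  classical
  obtain ⟨ι, T, B, hT, h1, h2, h3⟩ := h
  have := hP.to_subtype
  obtain ⟨r⟩ := hT.connected.nonempty
  have hn : ∀ q : V × V, ∃ t, q.1 ∈ B t ∧ (G.Adj q.1 q.2 → q.2 ∈ B t) := by
    intro q
    by_cases h : G.Adj q.1 q.2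
    · obtain ⟨t, a, b⟩ := h1 _ _ h
      exact ⟨t, a, fun _ => b⟩
    · obtain ⟨t⟩ := (h2 q.1).nonempty
      exact ⟨t, t.2, fun h' => absurd h' h⟩
  choose n n1 n2 using hn
  have hw : ∀ t, Nonempty (T.Walk r t) := fun t => hT.connected r t
  let w : ∀ t, T.Walk r t := fun t => (hw t).some
  set J : Set ι := {r} ∪ ⋃ q : P × P, {t | t ∈ (w (n (q.1, q.2))).support} with hJ
  have hJm : ∀ u v : P, ∀ t ∈ (w (n (u, v))).support, t ∈ J := fun u v t ht =>
    Or.inr (mem_iUnion.2 ⟨(u, v), ht⟩)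
  have hJf : J.Finite := (finite_singleton r).union (finite_iUnion fun q => List.finite_toSet _)
  have hJc : (T.induce J).Connected := by
    rw [connected_iff_exists_forall_reachable]
    refine ⟨⟨r, Or.inl rfl⟩, ?_⟩
    rintro ⟨t, rfl | ht⟩
    · rfl
    · obtain ⟨q, hq⟩ := mem_iUnion.1 ht
      exact (((w _).takeUntil t hq).induce J fun u hu =>
        hJm _ _ u (Walk.support_takeUntil_subset_support _ _ hu)).reachable
  refine ⟨J, hJf.to_subtype, T.induce J, fun t => (B t).subtype (· ∈ P),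
    ⟨hJc, hT.isAcyclic.induce J⟩, fun v => ⟨⟨_, hJm v v _ (Walk.end_mem_support _)⟩,
      Finset.mem_subtype.2 (n1 (v, v))⟩, fun u v huv => ⟨⟨_, hJm u v _ (Walk.end_mem_support _)⟩,
      Finset.mem_subtype.2 (n1 (u, v)), Finset.mem_subtype.2 (n2 (u, v) huv)⟩, fun v => ?_,
    fun t => ?_⟩
  · rintro ⟨⟨s, hs⟩, hs'⟩ ⟨⟨t, ht⟩, ht'⟩
    obtain ⟨w1⟩ := hJc ⟨s, hs⟩ ⟨t, ht⟩
    obtain ⟨w2⟩ := h2 v ⟨s, Finset.mem_subtype.1 hs'⟩ ⟨t, Finset.mem_subtype.1 ht'⟩
    have e : (w1.map (Embedding.induce J).toHom).toPath =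
        (w2.map (Embedding.induce _).toHom).toPath := (hT.isAcyclic.subsingleton_path _ _).elim _ _
    set q := (w1.map (Embedding.induce J).toHom).toPath with hq
    have q1 : ∀ u ∈ q.1.support, u ∈ J := fun u hu =>
      mem_of_map w1 u (Walk.support_toPath_subset_support _ hu)
    have q2 : ∀ u ∈ q.1.support, v.1 ∈ B u := fun u hu => by
      rw [e] at hu
      exact mem_of_map w2 u (Walk.support_toPath_subset_support _ hu)
    exact ((q.1.induce J q1).induce _ fun u hu => by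
      simp only [Walk.support_induce, List.mem_attachWith] at hu
      exact Finset.mem_subtype.2 (q2 _ hu)).reachable
  · rw [Finset.card_subtype]
    exact (Finset.card_filter_le _ _).trans (h3 t)

end Vale.Agent.N235
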