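import Vale.Agent.N235.Compact
import Vale.Agent.P235.H134.Grid.Planar
import Mathlib.Combinatorics.SimpleGraph.Connectivity.Subgraph

/-! P235 (helper92): from finite graphs to graphs of any cardinality. -/

namespace Vale.Agent.N235

open Vale.Agent.P235 Vale.Agent.P235F Vale.Agent.P235.H134 MeasureTheory Set SimpleGraph

variable {X : Type}

theorem len_map {P : Set X} {G : SimpleGraph X} (ℓ : Sym2 X → ℝ) {x y : P}
    (w : (G.induce P).Walk x y) :
    len ℓ (w.map (Embedding.induce P).toHom) = len (fun e => ℓ (e.map Subtype.val)) w := by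
  simp only [len, Walk.edges_map, List.map_map]
  rfl

theorem len_append {G : SimpleGraph X} (ℓ : Sym2 X → ℝ) {x y z : X} (w : G.Walk x y)
    (w' : G.Walk y z) : len ℓ (w.append w') = len ℓ w + len ℓ w' := by
  simp [len]

theorem len_reverse {G : SimpleGraph X} (ℓ : Sym2 X → ℝ) {x y : X} (w : G.Walk x y) :
    len ℓ w.reverse = len ℓ w := by
  simp [len, List.map_reverse, List.sum_reverse]

theorem embeds_of_walks {d : X → X → ℝ} {ℓ : Sym2 X → ℝ} {C : ℝ}
    (h : ∀ (S : Finset X) (ε : ℝ), 0 < ε → ∃ (G : SimpleGraph X) (Q : Set X),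
      (∀ e ∈ G.edgeSet, 0 < ℓ e) ∧ (∀ x y (w : G.Walk x y), d x y ≤ len ℓ w) ∧
      (∀ P ⊆ Q, P.Finite → (G.induce P).Connected → DistortionLE (G.induce P) C) ∧
      ∀ x ∈ S, ∀ y ∈ S, ∃ w : G.Walk x y, (∀ v ∈ w.support, v ∈ Q) ∧ len ℓ w ≤ d x y + ε) :
    EmbedsL1 d C := by
  classical
  refine embeds_of_finite fun S ε hε => ?_
  rcases S.eq_empty_or_nonempty with rfl | ⟨x₀, hx₀⟩
  · exact ⟨Unit, ⊤, 0, fun _ => 0, fun x => absurd x.2 (Finset.notMem_empty _)⟩
  have hδ : 0 < ε / (|C| + 1) := by positivity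
  obtain ⟨G, Q, hℓ, hd, hC, hw⟩ := h S _ hδ
  choose w hwQ hwl using hw
  set P : Set X := ⋃ x : S, ⋃ y : S, {v | v ∈ (w x x.2 y y.2).support} with hP
  have hPm : ∀ x (hx : x ∈ S) y (hy : y ∈ S), ∀ v ∈ (w x hx y hy).support, v ∈ P :=
    fun x hx y hy v hv => mem_iUnion.2 ⟨⟨x, hx⟩, mem_iUnion.2 ⟨⟨y, hy⟩, hv⟩⟩
  have hS : ∀ x ∈ S, x ∈ P := fun x hx => hPm x hx x hx x (Walk.start_mem_support _)
  have hPQ : P ⊆ Q := iUnion_subset fun x => iUnion_subset fun y v hv => hwQ _ _ _ _ v hv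
  have hPf : P.Finite := finite_iUnion fun x => finite_iUnion fun y => List.finite_toSet _
  have hPc : (G.induce P).Connected := by
    rw [connected_iff_exists_forall_reachable]
    refine ⟨⟨x₀, hS _ hx₀⟩, ?_⟩
    rintro ⟨v, hv⟩
    obtain ⟨x, y, hv'⟩ : ∃ x y : S, v ∈ (w x x.2 y y.2).support := by simpa [hP] using hv
    exact ((w x₀ hx₀ x x.2).induce P (hPm _ _ _ _)).reachable.trans
      (((w x x.2 y y.2).takeUntil v hv').induce P fun u hu =>
        hPm _ _ _ _ u (Walk.support_takeUntil_subset_support _ _ hu)).reachable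
  have hℓ' : ∀ e ∈ (G.induce P).edgeSet, 0 < ℓ (e.map Subtype.val) := fun e he =>
    hℓ _ ((Embedding.induce P).toHom.map_mem_edgeSet he)
  obtain ⟨Ω, _, μ, f, hf⟩ := hC P hPQ hPf hPc _ hℓ'
  refine ⟨Ω, inferInstance, μ, fun x => f ⟨x, hS _ x.2⟩, fun x y => ?_⟩
  obtain ⟨h1, h2⟩ := hf ⟨x, hS _ x.2⟩ ⟨y, hS _ y.2⟩
  set D := pathDist (G.induce P) (fun e => ℓ (e.map Subtype.val)) ⟨x, hS _ x.2⟩ ⟨y, hS _ y.2⟩
    with hD
  have hlo : d x y ≤ D := by
    have : Nonempty ((G.induce P).Walk ⟨x, hS _ x.2⟩ ⟨y, hS _ y.2⟩) := hPc _ _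
    exact le_ciInf fun w => (hd _ _ (w.map (Embedding.induce P).toHom)).trans_eq (len_map ℓ w)
  have hup : D ≤ d x y + ε / (|C| + 1) := by
    refine (dist_le (fun e he => (hℓ' e he).le) ((w x x.2 y y.2).induce P (hPm _ _ _ _))).trans ?_
    rw [← len_map, Walk.map_induce]
    exact hwl _ _ _ _
  refine ⟨hlo.trans h1, h2.trans ?_⟩
  have h3 : C * (D - d x y) ≤ |C| * (ε / (|C| + 1)) :=
    (le_abs_self _).trans (by
      rw [abs_mul]
      exact mul_le_mul_of_nonneg_left (abs_le.2 ⟨by linarith, by linarith⟩) (abs_nonneg _))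
  have h4 : |C| * (ε / (|C| + 1)) ≤ ε := by
    rw [mul_div_assoc', div_le_iff₀ (by positivity)]
    nlinarith [abs_nonneg C]
  linarith

/-- `c₁` of a connected graph of any cardinality is bounded by any bound for its finite connected
induced subgraphs. -/
theorem transfer {G : SimpleGraph X} (hc : G.Connected) {C : ℝ}
    (h : ∀ P : Set X, P.Finite → (G.induce P).Connected → DistortionLE (G.induce P) C) :
    DistortionLE G C := by
  intro ℓ hℓ
  refine embeds_of_walks (ℓ := ℓ) fun S ε hε => ⟨G, univ, hℓ,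
    fun x y w => dist_le (fun e he => (hℓ e he).le) w, fun P _ => h P, fun x _ y _ => ?_⟩
  have : Nonempty (G.Walk x y) := hc x y
  obtain ⟨w, hw⟩ := exists_lt_of_ciInf_lt (lt_add_of_pos_right (pathDist G ℓ x y) hε)
  exact ⟨w, fun _ _ => trivial, hw.le⟩

/-- the converse: `c₁` does not increase on connected finite induced subgraphs -/
theorem restrict {G : SimpleGraph X} {C : ℝ} (h : DistortionLE G C) (P : Set X) (hP : P.Finite)
    (hc : (G.induce P).Connected) : DistortionLE (G.induce P) C := by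
  classical
  intro ℓ hℓ
  have := hP.to_subtype
  obtain ⟨M, hM⟩ := (Set.finite_range fun p : P × P => pathDist (G.induce P) ℓ p.1 p.2).bddAbove
  have hM' : ∀ x y : P, pathDist (G.induce P) ℓ x y ≤ max M 1 := fun x y =>
    (hM ⟨(x, y), rfl⟩).trans (le_max_left _ _)
  set L : Sym2 X → ℝ := Function.extend (Sym2.map (Subtype.val : P → X)) ℓ fun _ => max M 1
    with hL
  have hinj : Function.Injective (Sym2.map (Subtype.val : P → X)) :=
    Sym2.map.injective Subtype.val_injective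
  have hL1 : ∀ e : Sym2 P, L (e.map Subtype.val) = ℓ e := fun e => hinj.extend_apply _ _ e
  have hL2 : ∀ a b : X, a ∉ P → L s(a, b) = max M 1 := by
    intro a b ha
    refine Function.extend_apply' _ _ _ ?_
    rintro ⟨e, he⟩
    have : a ∈ e.map Subtype.val := he ▸ Sym2.mem_mk_left a b
    obtain ⟨c, -, rfl⟩ := Sym2.mem_map.1 this
    exact ha c.2
  have hpos : ∀ e ∈ G.edgeSet, 0 < L e := by
    intro e he
    induction e using Sym2.ind with
    | _ a b =>
      by_cases ha : a ∈ P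
      · by_cases hb : b ∈ P
        · exact (hℓ s(⟨a, ha⟩, ⟨b, hb⟩) he).trans_eq (hL1 s(⟨a, ha⟩, ⟨b, hb⟩)).symm
        · rw [Sym2.eq_swap, hL2 _ _ hb]
          exact one_pos.trans_le (le_max_right _ _)
      · rw [hL2 _ _ ha]
        exact one_pos.trans_le (le_max_right _ _)
  have hfun : (fun e : Sym2 P => L (e.map Subtype.val)) = ℓ := funext hL1
  have key : ∀ x y : P, pathDist G L x y = pathDist (G.induce P) ℓ x y := by
    intro x y
    have h1 : Nonempty ((G.induce P).Walk x y) := hc x y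
    have h2 : Nonempty (G.Walk x y) := h1.map fun w => w.map (Embedding.induce P).toHom
    refine le_antisymm (le_ciInf fun w => ?_) (le_ciInf fun w => ?_)
    · refine (dist_le (fun e he => (hpos e he).le) (w.map (Embedding.induce P).toHom)).trans_eq ?_
      rw [len_map, hfun]
      rfl
    by_cases hw : ∀ v ∈ w.support, v ∈ P
    · refine (dist_le (fun e he => (hℓ e he).le) (w.induce P hw)).trans_eq ?_
      rw [← hfun, ← len_map, Walk.map_induce]
      rfl
    · push Not at hw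
      obtain ⟨v, hv, hvP⟩ := hw
      refine (hM' x y).trans ?_
      change _ ≤ len L w
      rw [← w.take_spec hv, len_append]
      have h3 := len_nonneg (fun e he => (hpos e he).le) (w.takeUntil v hv)
      refine le_add_of_nonneg_of_le h3 ?_
      generalize w.dropUntil v hv = q
      obtain ⟨y, hy⟩ := y
      cases q with
      | nil => exact absurd hy hvP
      | cons hab q =>
        have := len_nonneg (fun e he => (hpos e he).le) q
        simp only [len, Walk.edges_cons, List.map_cons, List.sum_cons, hL2 _ _ hvP] at this ⊢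
        linarith
  obtain ⟨Ω, _, μ, f, hf⟩ := h L hpos
  exact ⟨Ω, inferInstance, μ, fun x => f x, fun x y => key x y ▸ hf x y⟩

theorem planar_induce {G : SimpleGraph X} (h : Planar G) (P : Set X) : Planar (G.induce P) := by
  obtain ⟨p, γ, h1, h2, h3, h4, h5⟩ := h
  have he : ∀ e ∈ (G.induce P).edgeSet, e.map Subtype.val ∈ G.edgeSet := fun e he =>
    (Embedding.induce P).toHom.map_mem_edgeSet he
  have hinj : Function.Injective (Sym2.map (Subtype.val : P → X)) :=
    Sym2.map.injective Subtype.val_injective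
  refine ⟨fun a => p a, fun e => γ (e.map Subtype.val), h1.comp Subtype.val_injective,
    fun e h => h2 _ (he e h), fun a b hab => h3 a b hab, fun e h a ha => ?_,
    fun e h e' h' hne z hz => ?_⟩
  · obtain ⟨c, hc, hca⟩ := Sym2.mem_map.1 (h4 _ (he e h) a ha)
    exact Subtype.val_injective hca ▸ hc
  · obtain ⟨a, rfl⟩ := h5 _ (he e h) _ (he e' h') (hinj.ne hne) hz
    obtain ⟨c, -, rfl⟩ := Sym2.mem_map.1 (h4 _ (he e h) a hz.1)
    exact ⟨c, rfl⟩

theorem minor_of_induce {W : Type} {H : SimpleGraph W} {G : SimpleGraph X} {P : Set X}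
    (h : IsMinor H (G.induce P)) : IsMinor H G := by
  obtain ⟨μ, h1, h2, h3⟩ := h
  refine ⟨fun a => Subtype.val '' μ a, fun a => ?_,
    fun a b hab => (disjoint_image_iff Subtype.val_injective).2 (h2 a b hab), fun a b hab => ?_⟩
  · refine (h1 a).map (⟨fun v => ⟨v.1.1, v.1, v.2, rfl⟩, fun h => h⟩ :
      (G.induce P).induce (μ a) →g G.induce (Subtype.val '' μ a)) ?_
    rintro ⟨_, v, hv, rfl⟩
    exact ⟨⟨v, hv⟩, rfl⟩
  · obtain ⟨x, hx, y, hy, hxy⟩ := h3 a b hab
    exact ⟨x, ⟨x, hx, rfl⟩, y, ⟨y, hy, rfl⟩, hxy⟩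

end Vale.Agent.N235
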